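import Vale.Agent.P141.H204.Vec
import Vale.Agent.P141.H444.PayS
import Vale.Agent.P141.H736.TfCost
import Vale.Agent.P141.H48.ENdefs

/-!
# P141, line W, squad CE, module `CE0`: the natural price of a composite atom

A composite atom `catm a b c y = ∑ l m n, a l m (y₁, y₂) b l n (y₁, y₃) c m n (y₂, y₃)` (labels on
the three vertices) is the average over random signs of the scalar atoms `rt a b c w`; their pair
weight is in the mean at most six times the pair weight of the vector norms `vt a b c`.  So every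
subadditive price which is paid for the scalar atoms is paid for the composite ones:

* `catm_eq`, `avg_pw3`, `avg_wP`, `avg_lwt`;
* `sum_abs_le`, `sum_abs_price`: families of linear functionals;
* `cosF_price`, `costN_price`, `costR_price`: the cost in the position of role `0`, companions
  depending on the node;
* `a1v_eq`, `wN_price`, `region_price`, `cost_price`: the same on the line;
* `catm3_eq`, `pw3_vt3` : the case of one label at the third vertex.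
-/

namespace Vale.Agent.P141.H572

open Finset
open Vale.Agent.P141.H315 (Grid dot)
open Vale.Agent.P141.PL (Pt Bx el fc loc prd)
open Vale.Agent.P141.PL.H315 (avg avg_nonneg atm e12 e13 e23 Tri cube3)
open Vale.Agent.P141.PL.H318 (a1 ixs)
open Vale.Agent.P141.H550
open Vale.Agent.P141.H922 (n2 n4 nN pw3 wP pw3_nonneg wP_nonneg n2_nonneg n4_nonneg nN_nonneg)
open Vale.Agent.P141.H204

noncomputable section

/-- the signs -/
abbrev Sg (κ1 κ2 κ3 : Type*) : Type _ := (κ1 → Bool) × (κ2 → Bool) × (κ3 → Bool)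

section labels

variable {κ1 κ2 κ3 : Type*} [Fintype κ1] [Fintype κ2] [Fintype κ3]

/-- **A composite atom**: labels on the three vertices. -/
def catm (a : κ1 → κ2 → ℤ × ℤ → ℝ) (b : κ1 → κ3 → ℤ × ℤ → ℝ) (c : κ2 → κ3 → ℤ × ℤ → ℝ)
    (y : ℤ × ℤ × ℤ) : ℝ := ∑ l, ∑ m, ∑ n, atm (a l m, b l n, c m n) y

/-- the three vector norms -/
def vt (a : κ1 → κ2 → ℤ × ℤ → ℝ) (b : κ1 → κ3 → ℤ × ℤ → ℝ) (c : κ2 → κ3 → ℤ × ℤ → ℝ) : Tri :=
  (vn2 a, vn2 b, vn2 c)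

/-- the random scalar atom -/
def rt (a : κ1 → κ2 → ℤ × ℤ → ℝ) (b : κ1 → κ3 → ℤ × ℤ → ℝ) (c : κ2 → κ3 → ℤ × ℤ → ℝ)
    (w : Sg κ1 κ2 κ3) : Tri := (dv a w.1 w.2.1, dv b w.1 w.2.2, dv c w.2.1 w.2.2)

variable [DecidableEq κ1] [DecidableEq κ2] [DecidableEq κ3]

theorem avg_sg (F : Sg κ1 κ2 κ3 → ℝ) : avg univ F =
    avg univ fun ε : κ1 → Bool => avg univ fun δ : κ2 → Bool => avg univ fun γ : κ3 → Bool =>
      F (ε, δ, γ) := by
  rw [← univ_product_univ, avg_prod]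
  refine avg_congr fun ε _ => ?_
  rw [← univ_product_univ, avg_prod]

theorem sg_nonempty : (univ : Finset (Sg κ1 κ2 κ3)).Nonempty := univ_nonempty

theorem avg_sg12 (F : (κ1 → Bool) → (κ2 → Bool) → ℝ) :
    (avg univ fun w : Sg κ1 κ2 κ3 => F w.1 w.2.1) = avg univ fun ε => avg univ fun δ => F ε δ := by
  rw [avg_sg]
  exact avg_congr fun ε _ => avg_congr fun δ _ => avg_const univ_nonempty (F ε δ)

theorem avg_sg13 (F : (κ1 → Bool) → (κ3 → Bool) → ℝ) :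
    (avg univ fun w : Sg κ1 κ2 κ3 => F w.1 w.2.2) = avg univ fun ε => avg univ fun γ => F ε γ := by
  rw [avg_sg]
  exact avg_congr fun ε _ => avg_const univ_nonempty (avg univ fun γ => F ε γ)

theorem avg_sg23 (F : (κ2 → Bool) → (κ3 → Bool) → ℝ) :
    (avg univ fun w : Sg κ1 κ2 κ3 => F w.2.1 w.2.2) = avg univ fun δ => avg univ fun γ => F δ γ := by
  rw [avg_sg]
  exact avg_const (Q := (univ : Finset (κ1 → Bool))) univ_nonempty
    (avg univ fun δ => avg univ fun γ => F δ γ)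

/-- **The composite atom is the sign average of the scalar ones.** -/
theorem catm_eq (a : κ1 → κ2 → ℤ × ℤ → ℝ) (b : κ1 → κ3 → ℤ × ℤ → ℝ) (c : κ2 → κ3 → ℤ × ℤ → ℝ)
    (y : ℤ × ℤ × ℤ) : catm a b c y = avg univ fun w => atm (rt a b c w) y := by
  rw [avg_sg]
  exact (avg_dv_three a b c (y.1, y.2.1) (y.1, y.2.2) (y.2.1, y.2.2)).symm

/-- **The weight of the random scalar atom**, without the constants. -/
theorem avg_pw3 (Q : Finset (ℤ × ℤ × ℤ)) (a : κ1 → κ2 → ℤ × ℤ → ℝ) (b : κ1 → κ3 → ℤ × ℤ → ℝ)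
    (c : κ2 → κ3 → ℤ × ℤ → ℝ) :
    (avg univ fun w => pw3 Q (rt a b c w)) ≤ 6 * pw3 Q (vt a b c) := by
  have a4 := (avg_sg12 (κ3 := κ3) fun ε δ => n4 Q (e12 (dv a ε δ)) ^ 4).le.trans
    (avg_n4_dv Q fun l m => e12 (a l m))
  have a2 := (avg_sg12 (κ3 := κ3) fun ε δ => n2 Q (e12 (dv a ε δ)) ^ 4).le.trans
    (avg_n2_dv Q fun l m => e12 (a l m))
  have b4 := (avg_sg13 (κ2 := κ2) fun ε γ => n4 Q (e13 (dv b ε γ)) ^ 4).le.trans
    (avg_n4_dv Q fun l m => e13 (b l m))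
  have b2 := (avg_sg13 (κ2 := κ2) fun ε γ => n2 Q (e13 (dv b ε γ)) ^ 4).le.trans
    (avg_n2_dv Q fun l m => e13 (b l m))
  have c4 := (avg_sg23 (κ1 := κ1) fun δ γ => n4 Q (e23 (dv c δ γ)) ^ 4).le.trans
    (avg_n4_dv Q fun l m => e23 (c l m))
  have c2 := (avg_sg23 (κ1 := κ1) fun δ γ => n2 Q (e23 (dv c δ γ)) ^ 4).le.trans
    (avg_n2_dv Q fun l m => e23 (c l m))
  have aN := avg_nN_four (f := fun w : Sg κ1 κ2 κ3 => e12 (dv a w.1 w.2.1)) a2 a4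
  have bN := avg_nN_four (f := fun w : Sg κ1 κ2 κ3 => e13 (dv b w.1 w.2.2)) b2 b4
  have cN := avg_nN_four (f := fun w : Sg κ1 κ2 κ3 => e23 (dv c w.2.1 w.2.2)) c2 c4
  have k1 := avg_prod3 (nN_nonneg _ _) (nN_nonneg _ _) (n2_nonneg _ _) aN bN c2
  have k2 := avg_prod3 (nN_nonneg _ _) (nN_nonneg _ _) (n2_nonneg _ _) aN cN b2
  have k3 := avg_prod3 (nN_nonneg _ _) (nN_nonneg _ _) (n2_nonneg _ _) bN cN a2
  unfold pw3
  rw [avg_add, avg_add]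
  refine (add_le_add (add_le_add k1 k2) k3).trans (le_of_eq ?_)
  show _ = 6 * pw3 Q (vt a b c)
  unfold pw3 vt
  have ea : (vn2 fun l m => e12 (a l m)) = e12 (vn2 a) := rfl
  have eb : (vn2 fun l m => e13 (b l m)) = e13 (vn2 b) := rfl
  have ec : (vn2 fun l m => e23 (c l m)) = e23 (vn2 c) := rfl
  rw [ea, eb, ec]
  ring

/-- **The weight of the random scalar atom.** -/
theorem avg_wP {t : ℝ} (ht : 0 ≤ t) (Q : Finset (ℤ × ℤ × ℤ)) (a : κ1 → κ2 → ℤ × ℤ → ℝ)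
    (b : κ1 → κ3 → ℤ × ℤ → ℝ) (c : κ2 → κ3 → ℤ × ℤ → ℝ) :
    (avg univ fun w => wP t Q (rt a b c w)) ≤ 6 * wP t Q (vt a b c) := by
  unfold wP
  rw [avg_mul_left]
  refine (mul_le_mul_of_nonneg_left (avg_pw3 Q a b c)
    (mul_nonneg ht (Nat.cast_nonneg _))).trans (le_of_eq ?_)
  ring

/-- the local weight of the random scalar atom -/
theorem avg_lwt {t : ℝ} (ht : 0 ≤ t) (c0 : ℕ) (σ : ℤ) (d : Pt) (j k : ℕ) (s : ℤ) (q : Pt)
    (a : κ1 → κ2 → ℤ × ℤ → ℝ) (b : κ1 → κ3 → ℤ × ℤ → ℝ) (c : κ2 → κ3 → ℤ × ℤ → ℝ) :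
    (avg univ fun w => H347.lwt (H347.pwD t ht) c0 σ d j k s (q, rt a b c w)) ≤
      6 * H347.lwt (H347.pwD t ht) c0 σ d j k s (q, vt a b c) := by
  unfold H347.lwt
  simp only
  rw [avg_sum, mul_sum]
  refine sum_le_sum fun y _ => ?_
  split_ifs
  · show (avg univ fun w => t * pw3 (cube3 _ y) (rt a b c w)) ≤
      6 * (t * pw3 (cube3 _ y) (vt a b c))
    rw [avg_mul_left]
    refine (mul_le_mul_of_nonneg_left (avg_pw3 _ a b c) ht).trans (le_of_eq ?_)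
    ring
  · rw [avg_const sg_nonempty, mul_zero]

/-! ### Families of linear functionals -/

/-- the composite atom as a linear combination of functions -/
theorem catm_fun (a : κ1 → κ2 → ℤ × ℤ → ℝ) (b : κ1 → κ3 → ℤ × ℤ → ℝ)
    (c : κ2 → κ3 → ℤ × ℤ → ℝ) :
    catm a b c = ((univ : Finset (Sg κ1 κ2 κ3)).card : ℝ)⁻¹ • ∑ w, atm (rt a b c w) := by
  funext y
  rw [catm_eq, Pi.smul_apply, Finset.sum_apply, smul_eq_mul]
  rfl

/-- **Linear functionals**: the composite atom costs at most the mean of the scalar ones. -/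
theorem sum_abs_le {ν : Type*} (𝒩 : Finset ν) (L : ν → (ℤ × ℤ × ℤ → ℝ) →ₗ[ℝ] ℝ)
    (a : κ1 → κ2 → ℤ × ℤ → ℝ) (b : κ1 → κ3 → ℤ × ℤ → ℝ) (c : κ2 → κ3 → ℤ × ℤ → ℝ) :
    ∑ N ∈ 𝒩, |L N (catm a b c)| ≤ avg univ fun w => ∑ N ∈ 𝒩, |L N (atm (rt a b c w))| := by
  rw [avg_sum]
  refine sum_le_sum fun N _ => ?_
  rw [catm_fun, map_smul, map_sum, smul_eq_mul]
  exact abs_avg_le _ _

theorem sum_abs_price {ν : Type*} (𝒩 : Finset ν) (L : ν → (ℤ × ℤ × ℤ → ℝ) →ₗ[ℝ] ℝ) {P t : ℝ}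
    (hP : 0 ≤ P) (ht : 0 ≤ t) {Q : Finset (ℤ × ℤ × ℤ)}
    (h : ∀ u : Tri, ∑ N ∈ 𝒩, |L N (atm u)| ≤ P * wP t Q u)
    (a : κ1 → κ2 → ℤ × ℤ → ℝ) (b : κ1 → κ3 → ℤ × ℤ → ℝ) (c : κ2 → κ3 → ℤ × ℤ → ℝ) :
    ∑ N ∈ 𝒩, |L N (catm a b c)| ≤ 6 * P * wP t Q (vt a b c) := by
  refine (sum_abs_le 𝒩 L a b c).trans ((avg_mono fun w _ => h _).trans ?_)
  rw [avg_mul_left]
  refine (mul_le_mul_of_nonneg_left (avg_wP ht Q a b c) hP).trans (le_of_eq ?_)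
  ring

/-! ### The position of role `0` -/

/-- the local form is linear in the first function -/
def locL (k : ℕ) (m : Bx) (F1 F2 F3 : Pt → ℝ) : (ℤ × ℤ × ℤ → ℝ) →ₗ[ℝ] ℝ where
  toFun F0 := loc k m F0 F1 F2 F3
  map_add' F G := by
    unfold loc prd
    simp only [Pi.add_apply, add_mul, mul_add, sum_add_distrib]
  map_smul' r F := by
    unfold loc prd
    simp only [Pi.smul_apply, smul_eq_mul, RingHom.id_apply, mul_sum]
    refine sum_congr rfl fun x0 _ => sum_congr rfl fun x1 _ => sum_congr rfl fun x2 _ =>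
      sum_congr rfl fun x3 _ => ?_
    ring

@[simp] theorem locL_apply (k : ℕ) (m : Bx) (F1 F2 F3 : Pt → ℝ) (F0 : ℤ × ℤ × ℤ → ℝ) :
    locL k m F1 F2 F3 F0 = loc k m F0 F1 F2 F3 := rfl

end labels

/-- the cost of a function in the cube of scale `K` of `x`, companions depending on the box -/
def cosF (o : ℤ) (K : ℕ) (x : Pt) (F0 : Pt → ℝ) (F1 F2 F3 : ℕ → Pt → Pt → ℝ) : ℝ :=
  ∑ k ∈ Icc 1 K, (2 ^ k : ℝ)⁻¹ * ∑ m ∈ PL.H560.cbs K (PL.cx K x) k,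
    |loc k (PL.H560.bx0 o m) F0 (F1 k m) (F2 k m) (F3 k m)|

/-- the cost of squad EN is the cost of the atom -/
theorem cosF_atm (o : ℤ) (K : ℕ) (x : Pt) (u : Tri) (F1 F2 F3 : ℕ → Pt → ℝ) :
    cosF o K x (atm u) (fun k _ => F1 k) (fun k _ => F2 k) (fun k _ => F3 k) =
      H48.cos0 o K x u F1 F2 F3 := rfl

section cost

variable {κ1 κ2 κ3 : Type*} [Fintype κ1] [Fintype κ2] [Fintype κ3]
  [DecidableEq κ1] [DecidableEq κ2] [DecidableEq κ3]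
  (a : κ1 → κ2 → ℤ × ℤ → ℝ) (b : κ1 → κ3 → ℤ × ℤ → ℝ) (c : κ2 → κ3 → ℤ × ℤ → ℝ)

theorem cosF_le (o : ℤ) (K : ℕ) (x : Pt) (F1 F2 F3 : ℕ → Pt → Pt → ℝ) :
    cosF o K x (catm a b c) F1 F2 F3 ≤
      avg univ fun w => cosF o K x (atm (rt a b c w)) F1 F2 F3 := by
  have e : ∀ F0 : Pt → ℝ, cosF o K x F0 F1 F2 F3 =
      ∑ N ∈ (Icc 1 K).sigma fun k => PL.H560.cbs K (PL.cx K x) k,
        |((2 ^ N.1 : ℝ)⁻¹ • locL N.1 (PL.H560.bx0 o N.2) (F1 N.1 N.2) (F2 N.1 N.2)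
          (F3 N.1 N.2)) F0| := by
    intro F0
    unfold cosF
    rw [sum_sigma]
    refine sum_congr rfl fun k _ => ?_
    rw [mul_sum]
    refine sum_congr rfl fun m _ => ?_
    rw [LinearMap.smul_apply, smul_eq_mul, locL_apply, abs_mul,
      abs_of_nonneg (show (0 : ℝ) ≤ (2 ^ k)⁻¹ by positivity)]
  rw [e]
  refine (sum_abs_le _ _ a b c).trans (le_of_eq ?_)
  exact avg_congr fun w _ => (e _).symm

/-- **The natural price, position of role `0`**, companions depending on the box. -/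
theorem cosF_price {o : ℤ} {K : ℕ} {x : Pt} {F1 F2 F3 : ℕ → Pt → Pt → ℝ} {P t : ℝ} (hP : 0 ≤ P)
    (ht : 0 ≤ t) (h : ∀ u : Tri, cosF o K x (atm u) F1 F2 F3 ≤ P * wP t (cube3 K x) u) :
    cosF o K x (catm a b c) F1 F2 F3 ≤ 6 * P * wP t (cube3 K x) (vt a b c) := by
  refine (cosF_le a b c o K x F1 F2 F3).trans ((avg_mono fun w _ => h _).trans ?_)
  rw [avg_mul_left]
  refine (mul_le_mul_of_nonneg_left (avg_wP ht _ a b c) hP).trans (le_of_eq ?_)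
  ring

/-- the same for the costs of squad EN -/
theorem cos0_price {o : ℤ} {K : ℕ} {x : Pt} {F1 F2 F3 : ℕ → Pt → ℝ} {P t : ℝ} (hP : 0 ≤ P)
    (ht : 0 ≤ t) (h : ∀ u : Tri, H48.cos0 o K x u F1 F2 F3 ≤ P * wP t (cube3 K x) u) :
    cosF o K x (catm a b c) (fun k _ => F1 k) (fun k _ => F2 k) (fun k _ => F3 k) ≤
      6 * P * wP t (cube3 K x) (vt a b c) :=
  cosF_price a b c hP ht h

/-- the same from `CostN` -/
theorem costN_price {e : PL.H560.LF} {o : ℤ} {K : ℕ} {F1 F2 F3 : ℕ → ℤ → Pt → ℝ} {P t : ℝ}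
    (hP : 0 ≤ P) (ht : 0 ≤ t)
    (h : H347.Tr.CostN e o K P (fun K p u => wP t (cube3 K p) u) F1 F2 F3) (x : Pt) :
    cosF o K x (catm a b c) (fun k m => F1 k (H347.Tr.nu e m)) (fun k m => F2 k (H347.Tr.nu e m))
      (fun k m => F3 k (H347.Tr.nu e m)) ≤ 6 * P * wP t (cube3 K x) (vt a b c) :=
  cosF_price a b c hP ht (h x)

/-- the same from `CostR` -/
theorem costR_price {i : Fin 4} {o : ℤ} {K : ℕ} {h : ℕ → ℤ → Fin 4 → ℤ → ℝ} {P t : ℝ}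
    (hP : 0 ≤ P) (ht : 0 ≤ t)
    (hc : H347.Tr.CostR i o K P (fun K p u => wP t (cube3 K p) u) h) (x : Pt) :
    cosF o K x (catm a b c)
      (fun k m => (H347.Tr.cmN i o h k (H347.Tr.nu (H347.Tr.cc i) m)).1)
      (fun k m => (H347.Tr.cmN i o h k (H347.Tr.nu (H347.Tr.cc i) m)).2.1)
      (fun k m => (H347.Tr.cmN i o h k (H347.Tr.nu (H347.Tr.cc i) m)).2.2) ≤
      6 * P * wP t (cube3 K x) (vt a b c) :=
  costN_price a b c hP ht hc x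

/-! ### On the line -/

omit [DecidableEq κ1] [DecidableEq κ2] [DecidableEq κ3] in
/-- the push-forward of the composite atom -/
def a1v (d : Pt) (k : ℕ) (q : Pt) (s : ℤ) : ℝ :=
  ∑ y ∈ cube3 k q, if el d y = s then catm a b c y else 0

theorem a1v_fun (d : Pt) (k : ℕ) (q : Pt) : a1v a b c d k q =
    ((univ : Finset (Sg κ1 κ2 κ3)).card : ℝ)⁻¹ • ∑ w, a1 d k (q, rt a b c w) := by
  funext s
  rw [Pi.smul_apply, Finset.sum_apply, smul_eq_mul]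
  unfold a1v a1
  simp only
  rw [sum_comm (s := univ), mul_sum]
  refine sum_congr rfl fun y _ => ?_
  split_ifs
  · exact catm_eq a b c y
  · simp

/-- the value of a node is linear in the slot `r` -/
def wNL (o : ℤ) (h : Fin 4 → ℤ → ℝ) (r : Fin 4) (N : ℕ × ℤ) : (ℤ → ℝ) →ₗ[ℝ] ℝ where
  toFun φ := PL.H855.wN o (Function.update h r φ) N
  map_add' f g := PL.H855.wN_update_add o h r f g N
  map_smul' x f := PL.H855.wN_update_smul o h r x f N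

/-- **Linear functionals on the line.** -/
theorem line_le {ν : Type*} (𝒩 : Finset ν) (L : ν → (ℤ → ℝ) →ₗ[ℝ] ℝ) (d : Pt) (k : ℕ) (q : Pt) :
    ∑ N ∈ 𝒩, |L N (a1v a b c d k q)| ≤
      avg univ fun w => ∑ N ∈ 𝒩, |L N (a1 d k (q, rt a b c w))| := by
  rw [avg_sum]
  refine sum_le_sum fun N _ => ?_
  rw [a1v_fun, map_smul, map_sum, smul_eq_mul]
  exact abs_avg_le _ _

/-- the nodes, companions depending on the node -/
theorem wN_le (𝒩 : Finset (ℕ × ℤ)) (o : ℤ) (h : ℕ × ℤ → Fin 4 → ℤ → ℝ) (r : Fin 4) (d : Pt)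
    (k : ℕ) (q : Pt) :
    ∑ N ∈ 𝒩, |PL.H855.wN o (Function.update (h N) r (a1v a b c d k q)) N| ≤
      avg univ fun w => ∑ N ∈ 𝒩,
        |PL.H855.wN o (Function.update (h N) r (a1 d k (q, rt a b c w))) N| :=
  line_le a b c 𝒩 (fun N => wNL o (h N) r N) d k q

/-- **The natural price on a region**: `H444.sum_pay_scalar` for composite atoms. -/
theorem region_price {σ : ℤ} {gd ud : ℕ → ℤ → Prop} {Λ : ℕ} {x : ℤ}
    (hR : H8.Rgn (PL.H95.gr 7 σ) gd Λ x ud) {o : ℤ} (ho : o = 1 ∨ o = -1) (r : Fin 4) {P : ℝ}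
    (hP : 0 ≤ P) {h : Fin 4 → ℤ → ℝ}
    (hcost : ∀ K ≤ Λ, H347.Tr.CostR r o K P (fun K p u => wP 1 (cube3 K p) u)
      fun k _ j => H48.kl (H444.alR Λ ud) (h j) k) {𝒲 : Finset (ℕ × ℤ)} (hW : H347.Fi.Nd σ ud 𝒲)
    {j : ℕ} (hj : Λ ≤ j) (q : Pt) :
    ∑ N ∈ 𝒲, |PL.H855.wN o (Function.update h r (a1v a b c (fc r) j q)) N| ≤
      48 * P * H347.lwt (H347.pwD 1 zero_le_one) 7 σ (fc r) j Λ x (q, vt a b c) := by
  refine (wN_le a b c 𝒲 o (fun _ => h) r (fc r) j q).trans ?_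
  refine (avg_mono fun w _ =>
    H444.sum_pay_scalar hR ho r hP hcost hW hj (q, rt a b c w)).trans ?_
  rw [avg_mul_left]
  refine (mul_le_mul_of_nonneg_left (avg_lwt zero_le_one 7 σ (fc r) j Λ x q a b c)
    (by positivity)).trans (le_of_eq ?_)
  ring

/-- **The cost functional of a composite atom.** -/
theorem cost_le {g : Grid ℤ} (κ : Fin 4 → H736.Cls g) {o : ℤ} (ho : o = 1 ∨ o = -1) (i : Fin 4)
    (d : Pt) (j : ℕ) (q : Pt) (k : ℕ) (x : ℤ) :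
    H736.cost κ o i (a1v a b c d j q) k (g.cube k x) ≤
      avg univ fun w => H736.cost κ o i (a1 d j (q, rt a b c w)) k (g.cube k x) := by
  refine csSup_le (H736.vals_nonempty κ o i _ k x) ?_
  rintro r ⟨𝒩, A, h1, h2, rfl⟩
  rw [a1v_fun, H736.val_smul, abs_of_nonneg (inv_nonneg.2 (Nat.cast_nonneg _))]
  unfold avg
  refine mul_le_mul_of_nonneg_left ?_ (inv_nonneg.2 (Nat.cast_nonneg _))
  refine (H736.val_sum_le _ _ _ _ _ _).trans (sum_le_sum fun w _ => ?_)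
  exact H736.val_le_cost κ ho i _ h1 h2

/-- the price of the cost functional in the weight `wP` -/
theorem cost_price {g : Grid ℤ} (κ : Fin 4 → H736.Cls g) {o : ℤ} (ho : o = 1 ∨ o = -1)
    (i : Fin 4) (d : Pt) (j : ℕ) (q : Pt) (k : ℕ) (x : ℤ) {P t : ℝ} (hP : 0 ≤ P) (ht : 0 ≤ t)
    (h : ∀ u : Tri, H736.cost κ o i (a1 d j (q, u)) k (g.cube k x) ≤ P * wP t (cube3 j q) u) :
    H736.cost κ o i (a1v a b c d j q) k (g.cube k x) ≤ 6 * P * wP t (cube3 j q) (vt a b c) := by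
  refine (cost_le a b c κ ho i d j q k x).trans ((avg_mono fun w _ => h _).trans ?_)
  rw [avg_mul_left]
  refine (mul_le_mul_of_nonneg_left (avg_wP ht _ a b c) hP).trans (le_of_eq ?_)
  ring

/-- the price of the cost functional in the local weights -/
theorem cost_price_lwt {g : Grid ℤ} (κ : Fin 4 → H736.Cls g) {o : ℤ} (ho : o = 1 ∨ o = -1)
    (i : Fin 4) (d : Pt) (j : ℕ) (q : Pt) (k : ℕ) (x : ℤ) {P t : ℝ} (hP : 0 ≤ P) (ht : 0 ≤ t)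
    {c0 : ℕ} {σ : ℤ}
    (h : ∀ u : Tri, H736.cost κ o i (a1 d j (q, u)) k (g.cube k x) ≤
      P * H347.lwt (H347.pwD t ht) c0 σ d j k x (q, u)) :
    H736.cost κ o i (a1v a b c d j q) k (g.cube k x) ≤
      6 * P * H347.lwt (H347.pwD t ht) c0 σ d j k x (q, vt a b c) := by
  refine (cost_le a b c κ ho i d j q k x).trans ((avg_mono fun w _ => h _).trans ?_)
  rw [avg_mul_left]
  refine (mul_le_mul_of_nonneg_left (avg_lwt ht c0 σ d j k x q a b c) hP).trans (le_of_eq ?_)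
  ring

end cost

/-! ### One label -/

section one

variable {κ : Type*} [Fintype κ]

/-- labels at the third vertex: `g(x₁,x₂) ⟨v(x₁,x₃), u(x₂,x₃)⟩` -/
def catm3 (g : ℤ × ℤ → ℝ) (v u : κ → ℤ × ℤ → ℝ) (y : ℤ × ℤ × ℤ) : ℝ := ∑ n, atm (g, v n, u n) y

/-- labels at the second vertex: `g(x₁,x₃) ⟨v(x₁,x₂), u(x₂,x₃)⟩` -/
def catm2 (g : ℤ × ℤ → ℝ) (v u : κ → ℤ × ℤ → ℝ) (y : ℤ × ℤ × ℤ) : ℝ := ∑ n, atm (v n, g, u n) y

/-- labels at the first vertex: `g(x₂,x₃) ⟨v(x₁,x₂), u(x₁,x₃)⟩` -/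
def catm1 (g : ℤ × ℤ → ℝ) (v u : κ → ℤ × ℤ → ℝ) (y : ℤ × ℤ × ℤ) : ℝ := ∑ n, atm (v n, u n, g) y

theorem catm3_eq (g : ℤ × ℤ → ℝ) (v u : κ → ℤ × ℤ → ℝ) :
    catm3 g v u = catm (fun _ _ : Unit => g) (fun _ : Unit => v) (fun _ : Unit => u) := by
  funext y
  simp [catm3, catm]

theorem catm2_eq (g : ℤ × ℤ → ℝ) (v u : κ → ℤ × ℤ → ℝ) :
    catm2 g v u = catm (fun _ : Unit => v) (fun _ _ : Unit => g) (fun n (_ : Unit) => u n) := by
  funext y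
  simp [catm2, catm]

theorem catm1_eq (g : ℤ × ℤ → ℝ) (v u : κ → ℤ × ℤ → ℝ) :
    catm1 g v u = catm (fun n (_ : Unit) => v n) (fun n (_ : Unit) => u n)
      (fun _ _ : Unit => g) := by
  funext y
  simp [catm1, catm]

theorem vn2_unit (g : ℤ × ℤ → ℝ) (x : ℤ × ℤ) : vn2 (fun _ _ : Unit => g) x ^ 2 = g x ^ 2 := by
  rw [vn2_sq]; simp

theorem vn2_left (v : κ → ℤ × ℤ → ℝ) (x : ℤ × ℤ) :
    vn2 (fun _ : Unit => v) x ^ 2 = vn v x ^ 2 := by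
  rw [vn2_sq, vn_sq]; simp

theorem vn2_right (v : κ → ℤ × ℤ → ℝ) (x : ℤ × ℤ) :
    vn2 (fun n (_ : Unit) => v n) x ^ 2 = vn v x ^ 2 := by
  rw [vn2_sq, vn_sq]; simp

/-- the norms see the squares only -/
theorem pw3_congr (Q : Finset (ℤ × ℤ × ℤ)) {u u' : Tri} (h1 : ∀ x, u.1 x ^ 2 = u'.1 x ^ 2)
    (h2 : ∀ x, u.2.1 x ^ 2 = u'.2.1 x ^ 2) (h3 : ∀ x, u.2.2 x ^ 2 = u'.2.2 x ^ 2) :
    pw3 Q u = pw3 Q u' := by
  unfold pw3 nN
  rw [n2_abs' Q (f := e12 u.1) (g := e12 u'.1) fun x => h1 _,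
    n4_abs' Q (f := e12 u.1) (g := e12 u'.1) fun x => h1 _,
    n2_abs' Q (f := e13 u.2.1) (g := e13 u'.2.1) fun x => h2 _,
    n4_abs' Q (f := e13 u.2.1) (g := e13 u'.2.1) fun x => h2 _,
    n2_abs' Q (f := e23 u.2.2) (g := e23 u'.2.2) fun x => h3 _,
    n4_abs' Q (f := e23 u.2.2) (g := e23 u'.2.2) fun x => h3 _]

theorem wP_congr (t : ℝ) (Q : Finset (ℤ × ℤ × ℤ)) {u u' : Tri} (h1 : ∀ x, u.1 x ^ 2 = u'.1 x ^ 2)
    (h2 : ∀ x, u.2.1 x ^ 2 = u'.2.1 x ^ 2) (h3 : ∀ x, u.2.2 x ^ 2 = u'.2.2 x ^ 2) :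
    wP t Q u = wP t Q u' := by
  unfold wP
  rw [pw3_congr Q h1 h2 h3]

theorem lwt_congr {t : ℝ} (ht : 0 ≤ t) (c0 : ℕ) (σ : ℤ) (d : Pt) (j k : ℕ) (s : ℤ) (q : Pt)
    {u u' : Tri} (h1 : ∀ x, u.1 x ^ 2 = u'.1 x ^ 2) (h2 : ∀ x, u.2.1 x ^ 2 = u'.2.1 x ^ 2)
    (h3 : ∀ x, u.2.2 x ^ 2 = u'.2.2 x ^ 2) :
    H347.lwt (H347.pwD t ht) c0 σ d j k s (q, u) =
      H347.lwt (H347.pwD t ht) c0 σ d j k s (q, u') := by
  unfold H347.lwt
  refine sum_congr rfl fun y _ => ?_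
  split_ifs
  · show t * pw3 _ u = t * pw3 _ u'
    rw [pw3_congr _ h1 h2 h3]
  · rfl

/-- **The weight of the composite atom** `g ⟨v, u⟩`. -/
theorem wP_vt3 (t : ℝ) (Q : Finset (ℤ × ℤ × ℤ)) (g : ℤ × ℤ → ℝ) (v u : κ → ℤ × ℤ → ℝ) :
    wP t Q (vt (fun _ _ : Unit => g) (fun _ : Unit => v) (fun _ : Unit => u)) =
      wP t Q (g, vn v, vn u) := wP_congr t Q (vn2_unit g) (vn2_left v) (vn2_left u)

theorem wP_vt2 (t : ℝ) (Q : Finset (ℤ × ℤ × ℤ)) (g : ℤ × ℤ → ℝ) (v u : κ → ℤ × ℤ → ℝ) :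
    wP t Q (vt (fun _ : Unit => v) (fun _ _ : Unit => g) (fun n (_ : Unit) => u n)) =
      wP t Q (vn v, g, vn u) := wP_congr t Q (vn2_left v) (vn2_unit g) (vn2_right u)

theorem wP_vt1 (t : ℝ) (Q : Finset (ℤ × ℤ × ℤ)) (g : ℤ × ℤ → ℝ) (v u : κ → ℤ × ℤ → ℝ) :
    wP t Q (vt (fun n (_ : Unit) => v n) (fun n (_ : Unit) => u n) (fun _ _ : Unit => g)) =
      wP t Q (vn v, vn u, g) := wP_congr t Q (vn2_right v) (vn2_right u) (vn2_unit g)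

variable [DecidableEq κ]

/-- **The natural price of `g ⟨v, u⟩`**, position of role `0`. -/
theorem cosF_price3 {o : ℤ} {K : ℕ} {x : Pt} {F1 F2 F3 : ℕ → Pt → Pt → ℝ} {P t : ℝ} (hP : 0 ≤ P)
    (ht : 0 ≤ t) (h : ∀ u : Tri, cosF o K x (atm u) F1 F2 F3 ≤ P * wP t (cube3 K x) u)
    (g : ℤ × ℤ → ℝ) (v u : κ → ℤ × ℤ → ℝ) :
    cosF o K x (catm3 g v u) F1 F2 F3 ≤ 6 * P * wP t (cube3 K x) (g, vn v, vn u) := by
  rw [catm3_eq, ← wP_vt3]
  exact cosF_price _ _ _ hP ht h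

theorem cosF_price2 {o : ℤ} {K : ℕ} {x : Pt} {F1 F2 F3 : ℕ → Pt → Pt → ℝ} {P t : ℝ} (hP : 0 ≤ P)
    (ht : 0 ≤ t) (h : ∀ u : Tri, cosF o K x (atm u) F1 F2 F3 ≤ P * wP t (cube3 K x) u)
    (g : ℤ × ℤ → ℝ) (v u : κ → ℤ × ℤ → ℝ) :
    cosF o K x (catm2 g v u) F1 F2 F3 ≤ 6 * P * wP t (cube3 K x) (vn v, g, vn u) := by
  rw [catm2_eq, ← wP_vt2]
  exact cosF_price _ _ _ hP ht h

theorem cosF_price1 {o : ℤ} {K : ℕ} {x : Pt} {F1 F2 F3 : ℕ → Pt → Pt → ℝ} {P t : ℝ} (hP : 0 ≤ P)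
    (ht : 0 ≤ t) (h : ∀ u : Tri, cosF o K x (atm u) F1 F2 F3 ≤ P * wP t (cube3 K x) u)
    (g : ℤ × ℤ → ℝ) (v u : κ → ℤ × ℤ → ℝ) :
    cosF o K x (catm1 g v u) F1 F2 F3 ≤ 6 * P * wP t (cube3 K x) (vn v, vn u, g) := by
  rw [catm1_eq, ← wP_vt1]
  exact cosF_price _ _ _ hP ht h

/-! ### The fourth moments in the letters of squad EN -/

/-- labels on the last variable of the gauge -/
theorem mo4f_vec_last {A B C : Finset ℤ} {G : ℤ × ℤ × ℤ → ℝ} {M : ℝ} (hM : 0 ≤ M)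
    (h : ∀ a : ℤ → ℤ → ℝ, H769.mo4f A B C a G ≤
      M * (n2 (B ×ˢ C) (fun p => a p.1 p.2) ^ 2 * n4 (B ×ˢ C) (fun p => a p.1 p.2) ^ 2))
    (u : κ → ℤ → ℤ → ℝ) :
    (avg A fun z => avg B fun x => avg B fun x' =>
      (∑ l, avg C fun y => (u l x y * G (z, x, y)) * (u l x' y * G (z, x', y))) ^ 2) ≤
    3 * M * (n2 (B ×ˢ C) (vn fun l r => u l r.1 r.2) ^ 2 *
      n4 (B ×ˢ C) (vn fun l r => u l r.1 r.2) ^ 2) :=
  mo4v_le (A := B) (B := C) (C := A) (G := fun q => G (q.2.2, q.1, q.2.1)) hM h u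

/-- labels on the first variable of the gauge -/
theorem mo4f_vec_first {A B C : Finset ℤ} {G : ℤ × ℤ × ℤ → ℝ} {M : ℝ} (hM : 0 ≤ M)
    (h : ∀ a : ℤ → ℤ → ℝ, H769.mo4f A B C a G ≤
      M * (n2 (B ×ˢ C) (fun p => a p.1 p.2) ^ 2 * n4 (B ×ˢ C) (fun p => a p.1 p.2) ^ 2))
    (u : κ → ℤ → ℤ → ℝ) :
    (avg A fun z => avg C fun y => avg C fun y' =>
      (∑ l, avg B fun x => (u l x y * G (z, x, y)) * (u l x y' * G (z, x, y'))) ^ 2) ≤
    3 * M * (n2 (B ×ˢ C) (vn fun l r => u l r.1 r.2) ^ 2 *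
      n4 (B ×ˢ C) (vn fun l r => u l r.1 r.2) ^ 2) :=
  mo4t_le (A := B) (B := C) (C := A) (G := fun q => G (q.2.2, q.1, q.2.1)) hM h u

end one

end

end Vale.Agent.P141.H572
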