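import Vale.Agent.P141.H572.Dic
import Mathlib.Analysis.InnerProductSpace.PiL2

/-!
# P141, line W, squad CE: from inner product spaces to the labels `lbs L`

* `cor w l`: the coordinates of a vector, label `l` in `lbs L`, zero beyond the dimension;
  `sum_cor_mul`, `sum_cor_sq`, `sum_mul_cor` (test vectors), `cor_out`;
* `pmt T l l'`: the matrix of an operator; `pmt_symm`, `pmt_idem`, `pmt_cor`;
* `catL1_cor`: `g ⟨u, v⟩` is a composite atom with labels in `lbs L`; `cosV1_le`: the cost of a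
  moving one is a sum over `x₀` of labelled triangle forms;
* `kk`: killed kernels; `kk_of`, `kk_agree`.
-/

namespace Vale.Agent.P141.H572

open Finset
open Vale.Agent.P141.PL (Pt Bx el fc loc prd tri hs iv cx ix mem_iv)
open Vale.Agent.P141.PL.H315 (avg avg_nonneg atm e12 e13 e23 Tri cube3)
open Vale.Agent.P141.PL.H560 (cbs bx0)
open Vale.Agent.P141.H48 (XX)
open Vale.Agent.P141.H958 (lbs card_lbs)

noncomputable section

open scoped Classical

section cor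

variable {V : Type*} [NormedAddCommGroup V] [InnerProductSpace ℝ V] [FiniteDimensional ℝ V]
  {L : ℕ}

/-- the labels of the coordinates -/
def lab (V : Type*) [NormedAddCommGroup V] [InnerProductSpace ℝ V] [FiniteDimensional ℝ V]
    (i : Fin (Module.finrank ℝ V)) : ℤ := (i : ℕ)

theorem lab_inj : Function.Injective (lab V) := by
  intro i j h
  unfold lab at h
  exact Fin.ext (by exact_mod_cast h)

theorem lab_mem (hL : Module.finrank ℝ V ≤ 2 ^ L) (i : Fin (Module.finrank ℝ V)) :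
    lab V i ∈ lbs L := by
  unfold lab lbs
  rw [mem_Ico]
  refine ⟨by positivity, ?_⟩
  have h1 : (i : ℕ) < 2 ^ L := i.2.trans_le hL
  exact_mod_cast h1

/-- the coordinates of a vector -/
def cor (w : V) (l : ℤ) : ℝ :=
  ∑ i, if lab V i = l then inner ℝ (stdOrthonormalBasis ℝ V i) w else 0

theorem cor_eq_pad (w : V) (l : ℤ) :
    cor w l = pad (lab V) (fun i (w : V) => inner ℝ (stdOrthonormalBasis ℝ V i) w) l w := rfl

theorem cor_add (w w' : V) (l : ℤ) : cor (w + w') l = cor w l + cor w' l := by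
  unfold cor
  rw [← sum_add_distrib]
  refine sum_congr rfl fun i _ => ?_
  split_ifs
  · exact inner_add_right _ _ _
  · simp

theorem cor_smul (r : ℝ) (w : V) (l : ℤ) : cor (r • w) l = r * cor w l := by
  unfold cor
  rw [mul_sum]
  refine sum_congr rfl fun i _ => ?_
  split_ifs
  · exact real_inner_smul_right _ _ _
  · simp

@[simp] theorem cor_zero (l : ℤ) : cor (0 : V) l = 0 := by
  unfold cor
  simp

theorem cor_neg (w : V) (l : ℤ) : cor (-w) l = -cor w l := by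
  have h := cor_smul (-1) w l
  rw [neg_one_smul, neg_one_mul] at h
  exact h

theorem cor_sub (w w' : V) (l : ℤ) : cor (w - w') l = cor w l - cor w' l := by
  rw [sub_eq_add_neg, cor_add, cor_neg]
  ring

theorem cor_sum {ι : Type*} (s : Finset ι) (f : ι → V) (l : ℤ) :
    cor (∑ i ∈ s, f i) l = ∑ i ∈ s, cor (f i) l := by
  induction s using Finset.induction_on with
  | empty => simp
  | insert i s hi ih => rw [sum_insert hi, sum_insert hi, cor_add, ih]

theorem cor_out (hL : Module.finrank ℝ V ≤ 2 ^ L) (w : V) {l : ℤ} (hl : l ∉ lbs L) :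
    cor w l = 0 := by
  unfold cor
  refine sum_eq_zero fun i _ => if_neg fun h => hl ?_
  rw [← h]
  exact lab_mem hL i

/-- **The inner product in coordinates.** -/
theorem sum_cor_mul (hL : Module.finrank ℝ V ≤ 2 ^ L) (w w' : V) :
    ∑ l ∈ lbs L, cor w l * cor w' l = inner ℝ w w' := by
  have h := sum_pad_mul (L := L) lab_inj (lab_mem hL)
    (fun i (w : V) => inner ℝ (stdOrthonormalBasis ℝ V i) w)
    (fun i (w : V) => inner ℝ (stdOrthonormalBasis ℝ V i) w) w w'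
  refine h.trans ?_
  rw [← (stdOrthonormalBasis ℝ V).sum_inner_mul_inner w w']
  refine sum_congr rfl fun i _ => ?_
  rw [real_inner_comm w]

theorem sum_cor_sq (hL : Module.finrank ℝ V ≤ 2 ^ L) (w : V) :
    ∑ l ∈ lbs L, cor w l ^ 2 = ‖w‖ ^ 2 := by
  rw [← real_inner_self_eq_norm_sq, ← sum_cor_mul hL]
  exact sum_congr rfl fun l _ => sq _

/-- the vector of a test -/
def vec (V : Type*) [NormedAddCommGroup V] [InnerProductSpace ℝ V] [FiniteDimensional ℝ V]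
    (c : ℤ → ℝ) : V := ∑ i, c (lab V i) • stdOrthonormalBasis ℝ V i

theorem inner_vec (c : ℤ → ℝ) (w : V) :
    inner ℝ (vec V c) w = ∑ i, c (lab V i) * inner ℝ (stdOrthonormalBasis ℝ V i) w := by
  unfold vec
  rw [sum_inner]
  exact sum_congr rfl fun i _ => real_inner_smul_left _ _ _

/-- **Tests in coordinates.** -/
theorem sum_mul_cor (hL : Module.finrank ℝ V ≤ 2 ^ L) (c : ℤ → ℝ) (w : V) :
    ∑ l ∈ lbs L, c l * cor w l = inner ℝ (vec V c) w := by
  rw [inner_vec]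
  unfold cor
  simp only [mul_sum]
  rw [sum_comm]
  refine sum_congr rfl fun i _ => ?_
  rw [sum_eq_single (lab V i)]
  · rw [if_pos rfl]
  · intro l _ hl
    rw [if_neg hl.symm, mul_zero]
  · intro h
    exact absurd (lab_mem hL i) h

theorem norm_vec_sq (c : ℤ → ℝ) : ‖vec V c‖ ^ 2 = ∑ i : Fin (Module.finrank ℝ V), c (lab V i) ^ 2 := by
  rw [← real_inner_self_eq_norm_sq, inner_vec]
  refine sum_congr rfl fun i _ => ?_
  rw [sq]
  congr 1
  unfold vec
  rw [inner_sum, sum_eq_single i]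
  · rw [real_inner_smul_right, real_inner_self_eq_norm_sq, OrthonormalBasis.norm_eq_one]
    ring
  · intro j _ hj
    rw [real_inner_smul_right, (stdOrthonormalBasis ℝ V).inner_eq_zero (Ne.symm hj), mul_zero]
  · intro h
    exact absurd (mem_univ i) h

theorem norm_vec_le (hL : Module.finrank ℝ V ≤ 2 ^ L) (c : ℤ → ℝ) :
    ‖vec V c‖ ^ 2 ≤ ∑ l ∈ lbs L, c l ^ 2 := by
  rw [norm_vec_sq]
  have h1 : ∑ l ∈ univ.image (lab V), c l ^ 2 =
      ∑ i : Fin (Module.finrank ℝ V), c (lab V i) ^ 2 :=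
    sum_image fun i _ j _ h => lab_inj h
  rw [← h1]
  refine sum_le_sum_of_subset_of_nonneg ?_ fun _ _ _ => sq_nonneg _
  intro l hl
  obtain ⟨i, _, rfl⟩ := mem_image.1 hl
  exact lab_mem hL i

/-- the matrix of an operator -/
def pmt (T : V →ₗ[ℝ] V) (l l' : ℤ) : ℝ :=
  ∑ j, if lab V j = l' then cor (T (stdOrthonormalBasis ℝ V j)) l else 0

theorem pmt_eq (T : V →ₗ[ℝ] V) (l l' : ℤ) : pmt T l l' = ∑ i, ∑ j,
    if lab V i = l ∧ lab V j = l' then
      inner ℝ (stdOrthonormalBasis ℝ V i) (T (stdOrthonormalBasis ℝ V j)) else 0 := by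
  unfold pmt cor
  rw [sum_comm]
  refine sum_congr rfl fun j _ => ?_
  by_cases h : lab V j = l'
  · simp only [h, if_true, and_true]
  · simp only [h, if_false, and_false, sum_const_zero]

theorem pmt_symm {T : V →ₗ[ℝ] V} (hT : ∀ v w, inner ℝ (T v) w = inner ℝ v (T w)) (l l' : ℤ) :
    pmt T l l' = pmt T l' l := by
  rw [pmt_eq, pmt_eq, sum_comm]
  refine sum_congr rfl fun i _ => sum_congr rfl fun j _ => ?_
  simp only [and_comm]
  split_ifs
  · rw [real_inner_comm, hT]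
  · rfl

/-- **The operator acts by its matrix.** -/
theorem pmt_cor (hL : Module.finrank ℝ V ≤ 2 ^ L) (T : V →ₗ[ℝ] V) (w : V) (l : ℤ) :
    ∑ l' ∈ lbs L, pmt T l l' * cor w l' = cor (T w) l := by
  have h1 : ∀ l', pmt T l l' * cor w l' = ∑ j, if lab V j = l' then
      cor (T (stdOrthonormalBasis ℝ V j)) l * inner ℝ (stdOrthonormalBasis ℝ V j) w else 0 := by
    intro l'
    exact pad_mul (X := Unit) (Y := Unit) lab_inj
      (fun j _ => cor (T (stdOrthonormalBasis ℝ V j)) l)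
      (fun j _ => inner ℝ (stdOrthonormalBasis ℝ V j) w) l' () ()
  rw [sum_congr rfl fun l' _ => h1 l', sum_pad (lab_mem hL)]
  have h2 : w = ∑ j, inner ℝ (stdOrthonormalBasis ℝ V j) w • stdOrthonormalBasis ℝ V j :=
    ((stdOrthonormalBasis ℝ V).sum_repr' w).symm
  conv_rhs => rw [h2, map_sum, cor_sum]
  refine sum_congr rfl fun j _ => ?_
  rw [map_smul, cor_smul, mul_comm]

theorem pmt_mul (hL : Module.finrank ℝ V ≤ 2 ^ L) (T U : V →ₗ[ℝ] V) (l l' : ℤ) :
    ∑ p ∈ lbs L, pmt T l p * pmt U p l' = pmt (T ∘ₗ U) l l' := by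
  have h1 : ∀ p, pmt T l p * pmt U p l' = ∑ j, if lab V j = l' then
      pmt T l p * cor (U (stdOrthonormalBasis ℝ V j)) p else 0 := by
    intro p
    conv_lhs => rw [show pmt U p l' = ∑ j, if lab V j = l' then
      cor (U (stdOrthonormalBasis ℝ V j)) p else 0 from rfl]
    rw [mul_sum]
    refine sum_congr rfl fun j _ => ?_
    split_ifs <;> simp
  rw [sum_congr rfl fun p _ => h1 p, sum_comm]
  conv_rhs => unfold pmt
  refine sum_congr rfl fun j _ => ?_
  split_ifs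
  · rw [pmt_cor hL]
    rfl
  · exact sum_const_zero

/-- the matrix of a projection is idempotent -/
theorem pmt_idem (hL : Module.finrank ℝ V ≤ 2 ^ L) {T : V →ₗ[ℝ] V} (hT : ∀ v, T (T v) = T v)
    (l l' : ℤ) : ∑ p ∈ lbs L, pmt T l p * pmt T p l' = pmt T l l' := by
  rw [pmt_mul hL]
  congr 1
  exact LinearMap.ext hT

/-! ### Composite atoms in coordinates -/

/-- the edge of a vector valued function -/
def ce (u : ℤ → ℤ → V) (l : ℤ) (p : ℤ × ℤ) : ℝ := cor (u p.1 p.2) l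

/-- **`g ⟨u, v⟩` with labels in `lbs L`.** -/
theorem catL1_cor (hL : Module.finrank ℝ V ≤ 2 ^ L) (g : ℤ × ℤ → ℝ) (u v : ℤ → ℤ → V)
    (y : ℤ × ℤ × ℤ) :
    catL1 L g (ce u) (ce v) y = g (y.2.1, y.2.2) * inner ℝ (u y.1 y.2.1) (v y.1 y.2.2) := by
  unfold catL1 atm e12 e13 e23 ce
  simp only
  rw [← sum_mul, sum_cor_mul hL, mul_comm]

/-- **The cost of a moving composite atom**: `u k` on the edge of `F3`, `v k` on the edge of `F2`,
`g k` on the edge of `F1`. -/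
theorem cosV1_le (hL : Module.finrank ℝ V ≤ 2 ^ L) {al : ℕ → Pt → Prop} {o : ℤ} (ho : |o| = 1)
    {K : ℕ} (x : Pt) {g : ℕ → ℤ × ℤ → ℝ} {u v : ℕ → ℤ → ℤ → V} {F1 F2 F3 : ℕ → Pt → ℝ}
    {A : ℤ → ℕ → ℤ → ℤ → ℤ → ℝ} {B : ℤ → ℕ → ℤ → ℤ → ℝ} {H : ℤ → ℕ → ℤ → ℤ → ℤ → ℝ}
    (hA : ∀ k, 1 ≤ k → k ≤ K → ∀ m, al k m → ∀ x0, ∀ l ∈ lbs L, ∀ y ∈ iv k m.1,
      ∀ z ∈ iv k m.2.1, A x0 k l y z = cor (u k y z) l * F3 k (x0, y, z))
    (hB : ∀ k, 1 ≤ k → k ≤ K → ∀ m, al k m → ∀ x0, ∀ y ∈ iv k m.2.1, ∀ z ∈ iv k m.2.2,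
      B x0 k y z = g k (y, z) * F1 k (x0, y, z))
    (hH : ∀ k, 1 ≤ k → k ≤ K → ∀ m, al k m → ∀ x0, ∀ l ∈ lbs L, ∀ y ∈ iv k m.1,
      ∀ z ∈ iv k m.2.2, H x0 k l y z = cor (v k y z) l * F2 k (x0, y, z)) :
    cosM al o K x (fun k y => g k (y.2.1, y.2.2) * inner ℝ (u k y.1 y.2.1) (v k y.1 y.2.2))
        F1 F2 F3 ≤
      ∑ x0 ∈ XX K (cx K x), ∑ k ∈ Icc 1 K, (2 ^ k : ℝ)⁻¹ *
        ∑ m ∈ (cbs K (cx K x) k).filter (fun m => m.1 + m.2.1 + m.2.2 = o - 2 - ix k x0),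
          |∑ l ∈ lbs L, tri k m (A x0 k l) (B x0 k) (H x0 k l)| := by
  have h := cosL1_le (L := L) (al := al) ho (K := K) x (g := g) (u := fun k => ce (u k))
    (v := fun k => ce (v k)) (F1 := F1) (F2 := F2) (F3 := F3) (A := A) (B := B) (H := H) hA hB hH
  refine le_trans (le_of_eq ?_) h
  congr 1
  funext k y
  exact (catL1_cor hL (g k) (u k) (v k) y).symm

end cor

/-! ### Killed kernels -/

/-- the kernel of the edge `a k` (label `l`) and the companion `F k` at `x₀`, killed at the scale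
`0` and off the squares in `S` -/
def kk (S : ℕ → ℤ → ℤ → Prop) (a : ℕ → ℤ → ℤ → ℤ → ℝ) (F : ℕ → Pt → ℝ) (x0 : ℤ) (k : ℕ)
    (l x y : ℤ) : ℝ :=
  if k = 0 ∨ ¬ S k (ix k x) (ix k y) then 0 else a k l x y * F k (x0, x, y)

/-- the scalar version -/
def kk0 (S : ℕ → ℤ → ℤ → Prop) (a : ℕ → ℤ → ℤ → ℝ) (F : ℕ → Pt → ℝ) (x0 : ℤ) (k : ℕ)
    (x y : ℤ) : ℝ :=
  if k = 0 ∨ ¬ S k (ix k x) (ix k y) then 0 else a k x y * F k (x0, x, y)

section kk

variable {S : ℕ → ℤ → ℤ → Prop} {F : ℕ → Pt → ℝ} {x0 : ℤ}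

theorem kk_zero (a : ℕ → ℤ → ℤ → ℤ → ℝ) : kk S a F x0 0 = 0 := by
  funext l x y
  unfold kk
  rw [if_pos (Or.inl rfl)]
  rfl

theorem kk0_zero (a : ℕ → ℤ → ℤ → ℝ) : kk0 S a F x0 0 = 0 := by
  funext x y
  unfold kk0
  rw [if_pos (Or.inl rfl)]
  rfl

theorem kk_of {a : ℕ → ℤ → ℤ → ℤ → ℝ} {k : ℕ} (hk : 1 ≤ k) {m1 m2 : ℤ} (h : S k m1 m2)
    {x y : ℤ} (hx : x ∈ iv k m1) (hy : y ∈ iv k m2) (l : ℤ) :
    kk S a F x0 k l x y = a k l x y * F k (x0, x, y) := by
  rw [mem_iv] at hx hy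
  unfold kk
  rw [if_neg]
  rintro (h1 | h1)
  · omega
  · rw [hx, hy] at h1
    exact h1 h

theorem kk0_of {a : ℕ → ℤ → ℤ → ℝ} {k : ℕ} (hk : 1 ≤ k) {m1 m2 : ℤ} (h : S k m1 m2)
    {x y : ℤ} (hx : x ∈ iv k m1) (hy : y ∈ iv k m2) :
    kk0 S a F x0 k x y = a k x y * F k (x0, x, y) := by
  rw [mem_iv] at hx hy
  unfold kk0
  rw [if_neg]
  rintro (h1 | h1)
  · omega
  · rw [hx, hy] at h1
    exact h1 h

/-- the label event: the value of the scale `k` in the edge, everything else at the scale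
`k + 1` -/
def km (S : ℕ → ℤ → ℤ → Prop) (a : ℕ → ℤ → ℤ → ℤ → ℝ) (F : ℕ → Pt → ℝ) (x0 : ℤ) (k : ℕ)
    (l x y : ℤ) : ℝ :=
  if ¬ S (k + 1) (ix (k + 1) x) (ix (k + 1) y) then 0 else a k l x y * F (k + 1) (x0, x, y)

/-- **The part of a step which is not a label event**: off the squares where the companion changes
or the kernel is killed, the intermediate kernel is the new one. -/
theorem km_agree {N k : ℕ} {R T : ℤ} {a : ℕ → ℤ → ℤ → ℤ → ℝ} {Q : ℕ → Pt → Prop}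
    (hF : ∀ m : Pt, ¬ Q k m → ∀ y ∈ PL.cb k m, F (k + 1) y = F k y)
    (hS : ∀ m1 m2, S k m1 m2 → S (k + 1) (ix 1 m1) (ix 1 m2)) (hk : 1 ≤ k) (l : ℤ) :
    H736.Agree N R T k (fun r s => Q k (ix k x0, r, s) ∨ (S (k + 1) (ix 1 r) (ix 1 s) ∧ ¬ S k r s))
      (km S a F x0 k l) (kk S a F x0 k l) := by
  intro n _ m _ hq x hx y hy
  rw [mem_iv] at hx hy
  rw [not_or] at hq
  obtain ⟨h1, h2⟩ := hq
  have e1 : ix (k + 1) x = ix 1 n := by rw [← hx, PL.ix_ix]
  have e2 : ix (k + 1) y = ix 1 m := by rw [← hy, PL.ix_ix]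
  have hF' : F (k + 1) (x0, x, y) = F k (x0, x, y) := by
    refine hF _ h1 _ ?_
    unfold PL.cb
    rw [mem_product, mem_product, mem_iv, mem_iv, mem_iv]
    exact ⟨rfl, hx, hy⟩
  unfold km kk
  rw [e1, e2, hx, hy]
  by_cases hs : S k n m
  · have hs' := hS n m hs
    rw [if_neg (not_not.2 hs'), if_neg (by
      rintro (h | h)
      · omega
      · exact h hs), hF']
  · have hs' : ¬ S (k + 1) (ix 1 n) (ix 1 m) := fun h => h2 ⟨h, hs⟩
    rw [if_pos hs', if_pos (Or.inr hs)]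

/-- the label event on the kernels: the same linear operation as on the edge -/
theorem km_eq {a : ℕ → ℤ → ℤ → ℤ → ℝ} {k : ℕ} {l x y : ℤ} {P : Finset ℤ} {p : ℤ → ℤ → ℝ}
    (h : a k l x y = a (k + 1) l x y - ∑ l' ∈ P, p l l' * a (k + 1) l' x y) :
    km S a F x0 k l x y = kk S a F x0 (k + 1) l x y -
      ∑ l' ∈ P, p l l' * kk S a F x0 (k + 1) l' x y := by
  unfold km kk
  by_cases hs : S (k + 1) (ix (k + 1) x) (ix (k + 1) y)
  · simp only [hs, not_true_eq_false, or_false, Nat.add_eq_zero_iff, one_ne_zero, and_false,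
      if_false]
    rw [h, sub_mul, sum_mul]
    congr 1
    exact sum_congr rfl fun l' _ => by ring
  · simp [hs]

end kk

end

end Vale.Agent.P141.H572
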