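import Vale.Agent.P141.H572.CE0
import Vale.Agent.P141.H48.En6
import Vale.Agent.P141.H958.Enc

/-!
# P141, line W, squad CE: the dictionary of role `0` for composite atoms

The local form of a composite atom is a sum over `x₀` of triangle forms with a label sum inside the
absolute value.  The function of face `0` and the companions depend on the scale.

* `triv`, `tri1`: the triangle forms with labels; `loc_catm`, `loc_catm1`;
* `abs_loc_catm`, `abs_loc_catm1`: one box;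
* `cosM`: the cost of a function depending on the scale, `cosM_add_le`;
* `cosM_le`: the cost on the alive cubes, regrouped over `x₀`, kernels replaced by any kernels
  which agree on the alive cubes; `cosM1_le` the case of one label at the first vertex.
-/

namespace Vale.Agent.P141.H572

open Finset
open Vale.Agent.P141.PL (Pt Bx el fc loc prd tri hs iv cx ix mem_iv)
open Vale.Agent.P141.PL.H315 (avg avg_nonneg atm e12 e13 e23 Tri cube3)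
open Vale.Agent.P141.PL.H560 (cbs bx0)
open Vale.Agent.P141.PL.H317 (i0 crn ed abs_loc_le toAtom toAtom_fn)
open Vale.Agent.P141.PL.H997 (mat)
open Vale.Agent.P141.PL.H990 (X0 regroup)
open Vale.Agent.P141.H48 (XX sum_XX bx0_eq)
open Vale.Agent.P141.H958 (lbs card_lbs)

noncomputable section

open scoped Classical

section labels

variable {κ1 κ2 κ3 : Type*} [Fintype κ1] [Fintype κ2] [Fintype κ3]

/-- the triangle form with labels on the three vertices -/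
def triv (k : ℕ) (m : Pt) (A : κ1 → κ2 → ℤ → ℤ → ℝ) (B : κ2 → κ3 → ℤ → ℤ → ℝ)
    (H : κ1 → κ3 → ℤ → ℤ → ℝ) : ℝ := ∑ l, ∑ p, ∑ n, tri k m (A l p) (B p n) (H l n)

/-- the kernel of an edge with labels and its companion, at `x₀` -/
def matv {κ κ' : Type*} (a : κ → κ' → ℤ × ℤ → ℝ) (G : ℕ → Pt → ℝ) (x0 : ℤ) (k : ℕ) :
    κ → κ' → ℤ → ℤ → ℝ := fun l p => mat (ed (a l p)) G x0 k

/-- the local form of a composite atom is a sum over `x₀` -/
theorem loc_catm (k : ℕ) (o : ℤ) (m : Pt) (a : κ1 → κ2 → ℤ × ℤ → ℝ)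
    (b : κ1 → κ3 → ℤ × ℤ → ℝ) (c : κ2 → κ3 → ℤ × ℤ → ℝ) (G1 G2 G3 : ℕ → Pt → ℝ) :
    loc k (i0 o m, m) (catm a b c) (G1 k) (G2 k) (G3 k) = ∑ x0 ∈ iv k (i0 o m), hs k x0 *
      triv k m (matv a G3 x0 k) (matv c G1 x0 k) (matv b G2 x0 k) := by
  have e : (catm a b c : ℤ × ℤ × ℤ → ℝ) = ∑ l, ∑ p, ∑ n, atm (a l p, b l n, c p n) := by
    funext y
    unfold catm
    simp only [Finset.sum_apply]
  rw [← locL_apply, e, map_sum]
  simp only [map_sum, locL_apply]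
  have h : ∀ l p n, loc k (i0 o m, m) (atm (a l p, b l n, c p n)) (G1 k) (G2 k) (G3 k) =
      ∑ x0 ∈ iv k (i0 o m), hs k x0 * tri k m (mat (ed (a l p)) G3 x0 k)
        (mat (ed (c p n)) G1 x0 k) (mat (ed (b l n)) G2 x0 k) := by
    intro l p n
    have h1 := PL.loc_atom k (i0 o m, m) (toAtom (a l p, b l n, c p n)) (G1 k) (G2 k) (G3 k)
    rwa [toAtom_fn] at h1
  simp only [h]
  unfold triv matv
  simp only [mul_sum]
  symm
  rw [sum_comm]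
  refine sum_congr rfl fun l _ => ?_
  rw [sum_comm]
  refine sum_congr rfl fun p _ => ?_
  rw [sum_comm]

/-- one box -/
theorem abs_loc_catm (k : ℕ) (o : ℤ) (m : Pt) (a : κ1 → κ2 → ℤ × ℤ → ℝ)
    (b : κ1 → κ3 → ℤ × ℤ → ℝ) (c : κ2 → κ3 → ℤ × ℤ → ℝ) (G1 G2 G3 : ℕ → Pt → ℝ) :
    |loc k (i0 o m, m) (catm a b c) (G1 k) (G2 k) (G3 k)| ≤ ∑ x0 ∈ iv k (i0 o m),
      |triv k m (matv a G3 x0 k) (matv c G1 x0 k) (matv b G2 x0 k)| := by
  rw [loc_catm]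
  refine (abs_sum_le_sum_abs _ _).trans (le_of_eq ?_)
  exact sum_congr rfl fun x0 _ => by rw [abs_mul, PL.abs_hs, one_mul]

theorem triv_congr {k : ℕ} {m : Pt} {A A' : κ1 → κ2 → ℤ → ℤ → ℝ} {B B' : κ2 → κ3 → ℤ → ℤ → ℝ}
    {H H' : κ1 → κ3 → ℤ → ℤ → ℝ}
    (hA : ∀ l p, ∀ x ∈ iv k m.1, ∀ y ∈ iv k m.2.1, A l p x y = A' l p x y)
    (hB : ∀ p n, ∀ x ∈ iv k m.2.1, ∀ y ∈ iv k m.2.2, B p n x y = B' p n x y)
    (hH : ∀ l n, ∀ x ∈ iv k m.1, ∀ y ∈ iv k m.2.2, H l n x y = H' l n x y) :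
    triv k m A B H = triv k m A' B' H' := by
  unfold triv tri
  refine sum_congr rfl fun l _ => sum_congr rfl fun p _ => sum_congr rfl fun n _ =>
    sum_congr rfl fun x1 h1 => sum_congr rfl fun x2 h2 => sum_congr rfl fun x3 h3 => ?_
  rw [hA l p x1 h1 x2 h2, hB p n x2 h2 x3 h3, hH l n x1 h1 x3 h3]

/-! ### The cost of a function depending on the scale -/

end labels

/-- the cost of a function depending on the scale, on the cubes with index in `al` -/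
def cosM (al : ℕ → Pt → Prop) (o : ℤ) (K : ℕ) (x : Pt) (F0 F1 F2 F3 : ℕ → Pt → ℝ) : ℝ :=
  ∑ k ∈ Icc 1 K, (2 ^ k : ℝ)⁻¹ * ∑ m ∈ (cbs K (cx K x) k).filter (al k),
    |loc k (bx0 o m) (F0 k) (F1 k) (F2 k) (F3 k)|

theorem cosM_nonneg (al : ℕ → Pt → Prop) (o : ℤ) (K : ℕ) (x : Pt) (F0 F1 F2 F3 : ℕ → Pt → ℝ) :
    0 ≤ cosM al o K x F0 F1 F2 F3 :=
  sum_nonneg fun _ _ => mul_nonneg (by positivity) (sum_nonneg fun _ _ => abs_nonneg _)

/-- all the cubes, static function: the cost `cosF` -/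
theorem cosM_static (o : ℤ) (K : ℕ) (x : Pt) (F0 : Pt → ℝ) (F1 F2 F3 : ℕ → Pt → ℝ) :
    cosM (fun _ _ => True) o K x (fun _ => F0) F1 F2 F3 =
      cosF o K x F0 (fun k _ => F1 k) (fun k _ => F2 k) (fun k _ => F3 k) := by
  unfold cosM cosF
  refine sum_congr rfl fun k _ => ?_
  congr 1
  refine sum_congr ?_ fun _ _ => rfl
  ext m
  simp

/-- the cost of a sum on the cubes where the sum holds -/
theorem cosM_sum_le {ν : Type*} (S : Finset ν) {al : ℕ → Pt → Prop} {o : ℤ} {K : ℕ} {x : Pt}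
    {F0 F1 F2 F3 : ℕ → Pt → ℝ} {G : ν → ℕ → Pt → ℝ}
    (h : ∀ k ∈ Icc 1 K, ∀ m ∈ cbs K (cx K x) k, al k m → ∀ y ∈ PL.cb k m,
      F0 k y = ∑ i ∈ S, G i k y) :
    cosM al o K x F0 F1 F2 F3 ≤ ∑ i ∈ S, cosM al o K x (G i) F1 F2 F3 := by
  unfold cosM
  rw [sum_comm]
  refine sum_le_sum fun k hk => ?_
  rw [← mul_sum, sum_comm]
  refine mul_le_mul_of_nonneg_left (sum_le_sum fun m hm => ?_) (by positivity)
  have e : loc k (bx0 o m) (F0 k) (F1 k) (F2 k) (F3 k) =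
      ∑ i ∈ S, loc k (bx0 o m) (G i k) (F1 k) (F2 k) (F3 k) := by
    rw [← PL.H560.loc_sum0]
    unfold loc prd
    refine sum_congr rfl fun x0 _ => sum_congr rfl fun x1 h1 => sum_congr rfl fun x2 h2 =>
      sum_congr rfl fun x3 h3 => ?_
    rw [h k hk m (mem_filter.1 hm).1 (mem_filter.1 hm).2 (x1, x2, x3) (by
      unfold PL.cb
      rw [mem_product, mem_product]
      exact ⟨h1, h2, h3⟩)]
  rw [e]
  exact abs_sum_le_sum_abs _ _

section regroup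

variable {κ1 κ2 κ3 : Type*} [Fintype κ1] [Fintype κ2] [Fintype κ3]

/-- **The cost of a moving composite atom, regrouped over `x₀`**: on the alive cubes the kernels
may be replaced by any kernels which agree there. -/
theorem cosM_le {al : ℕ → Pt → Prop} {o : ℤ} (ho : |o| = 1) {K : ℕ} (x : Pt)
    {a : ℕ → κ1 → κ2 → ℤ × ℤ → ℝ} {b : ℕ → κ1 → κ3 → ℤ × ℤ → ℝ}
    {c : ℕ → κ2 → κ3 → ℤ × ℤ → ℝ} {F1 F2 F3 : ℕ → Pt → ℝ}
    {A : ℤ → ℕ → κ1 → κ2 → ℤ → ℤ → ℝ} {B : ℤ → ℕ → κ2 → κ3 → ℤ → ℤ → ℝ}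
    {H : ℤ → ℕ → κ1 → κ3 → ℤ → ℤ → ℝ}
    (hA : ∀ k, 1 ≤ k → k ≤ K → ∀ m, al k m → ∀ x0, ∀ l p, ∀ y ∈ iv k m.1, ∀ z ∈ iv k m.2.1,
      A x0 k l p y z = a k l p (y, z) * F3 k (x0, y, z))
    (hB : ∀ k, 1 ≤ k → k ≤ K → ∀ m, al k m → ∀ x0, ∀ p n, ∀ y ∈ iv k m.2.1, ∀ z ∈ iv k m.2.2,
      B x0 k p n y z = c k p n (y, z) * F1 k (x0, y, z))
    (hH : ∀ k, 1 ≤ k → k ≤ K → ∀ m, al k m → ∀ x0, ∀ l n, ∀ y ∈ iv k m.1, ∀ z ∈ iv k m.2.2,
      H x0 k l n y z = b k l n (y, z) * F2 k (x0, y, z)) :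
    cosM al o K x (fun k => catm (a k) (b k) (c k)) F1 F2 F3 ≤
      ∑ x0 ∈ XX K (cx K x), ∑ k ∈ Icc 1 K, (2 ^ k : ℝ)⁻¹ *
        ∑ m ∈ (cbs K (cx K x) k).filter (fun m => m.1 + m.2.1 + m.2.2 = o - 2 - ix k x0),
          |triv k m (A x0 k) (B x0 k) (H x0 k)| := by
  have step1 : cosM al o K x (fun k => catm (a k) (b k) (c k)) F1 F2 F3 ≤
      ∑ k ∈ Icc 1 K, (2 ^ k : ℝ)⁻¹ * ∑ m ∈ PL.H317.cbs K (cx K x) k, ∑ x0 ∈ iv k (i0 o m),
        |triv k m (A x0 k) (B x0 k) (H x0 k)| := by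
    unfold cosM
    refine sum_le_sum fun k hk => mul_le_mul_of_nonneg_left ?_ (by positivity)
    rw [mem_Icc] at hk
    have e0 : cbs K (cx K x) k = PL.H317.cbs K (cx K x) k := rfl
    rw [e0]
    refine le_trans (sum_le_sum fun m hm => ?_) (sum_le_sum_of_subset_of_nonneg
      (filter_subset _ _) fun m _ _ => sum_nonneg fun _ _ => abs_nonneg _)
    rw [bx0_eq]
    refine (abs_loc_catm k o m (a k) (b k) (c k) F1 F2 F3).trans (le_of_eq ?_)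
    refine sum_congr rfl fun x0 _ => ?_
    have hm' := (mem_filter.1 hm).2
    congr 1
    refine triv_congr (fun l p y hy z hz => ?_) (fun p n y hy z hz => ?_) fun l n y hy z hz => ?_
    · exact (hA k hk.1 hk.2 m hm' x0 l p y hy z hz).symm
    · exact (hB k hk.1 hk.2 m hm' x0 p n y hy z hz).symm
    · exact (hH k hk.1 hk.2 m hm' x0 l n y hy z hz).symm
  refine step1.trans (le_of_eq ?_)
  rw [regroup (cx K x) (by rw [ho]) (fun k x0 m => |triv k m (A x0 k) (B x0 k) (H x0 k)|),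
    ← sum_XX]
  rfl

end regroup

/-! ### One label at the first vertex -/

section one

variable {κ : Type*} [Fintype κ]

/-- the triangle form with labels on the first vertex -/
def tri1 (k : ℕ) (m : Pt) (A : κ → ℤ → ℤ → ℝ) (B : ℤ → ℤ → ℝ) (H : κ → ℤ → ℤ → ℝ) : ℝ :=
  ∑ l, tri k m (A l) B (H l)

theorem triv_one (k : ℕ) (m : Pt) (A : κ → ℤ → ℤ → ℝ) (B : ℤ → ℤ → ℝ) (H : κ → ℤ → ℤ → ℝ) :
    triv k m (fun l (_ : Unit) => A l) (fun _ _ : Unit => B) (fun l (_ : Unit) => H l) =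
      tri1 k m A B H := by
  simp [triv, tri1]

/-- **The cost of a moving composite atom `g ⟨u, v⟩`, pivot at the first vertex**: `u` on the edge
of `F3`, `v` on the edge of `F2`, `g` on the edge of `F1`. -/
theorem cosM1_le {al : ℕ → Pt → Prop} {o : ℤ} (ho : |o| = 1) {K : ℕ} (x : Pt)
    {g : ℕ → ℤ × ℤ → ℝ} {u v : ℕ → κ → ℤ × ℤ → ℝ} {F1 F2 F3 : ℕ → Pt → ℝ}
    {A : ℤ → ℕ → κ → ℤ → ℤ → ℝ} {B : ℤ → ℕ → ℤ → ℤ → ℝ} {H : ℤ → ℕ → κ → ℤ → ℤ → ℝ}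
    (hA : ∀ k, 1 ≤ k → k ≤ K → ∀ m, al k m → ∀ x0, ∀ l, ∀ y ∈ iv k m.1, ∀ z ∈ iv k m.2.1,
      A x0 k l y z = u k l (y, z) * F3 k (x0, y, z))
    (hB : ∀ k, 1 ≤ k → k ≤ K → ∀ m, al k m → ∀ x0, ∀ y ∈ iv k m.2.1, ∀ z ∈ iv k m.2.2,
      B x0 k y z = g k (y, z) * F1 k (x0, y, z))
    (hH : ∀ k, 1 ≤ k → k ≤ K → ∀ m, al k m → ∀ x0, ∀ l, ∀ y ∈ iv k m.1, ∀ z ∈ iv k m.2.2,
      H x0 k l y z = v k l (y, z) * F2 k (x0, y, z)) :
    cosM al o K x (fun k => catm1 (g k) (u k) (v k)) F1 F2 F3 ≤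
      ∑ x0 ∈ XX K (cx K x), ∑ k ∈ Icc 1 K, (2 ^ k : ℝ)⁻¹ *
        ∑ m ∈ (cbs K (cx K x) k).filter (fun m => m.1 + m.2.1 + m.2.2 = o - 2 - ix k x0),
          |tri1 k m (A x0 k) (B x0 k) (H x0 k)| := by
  have h := cosM_le (al := al) ho (K := K) x (a := fun k l (_ : Unit) => u k l)
    (b := fun k l (_ : Unit) => v k l) (c := fun k (_ _ : Unit) => g k) (F1 := F1) (F2 := F2)
    (F3 := F3) (A := fun x0 k l (_ : Unit) => A x0 k l) (B := fun x0 k (_ _ : Unit) => B x0 k)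
    (H := fun x0 k l (_ : Unit) => H x0 k l)
    (fun k h1 h2 m hm x0 l _ y hy z hz => hA k h1 h2 m hm x0 l y hy z hz)
    (fun k h1 h2 m hm x0 _ _ y hy z hz => hB k h1 h2 m hm x0 y hy z hz)
    (fun k h1 h2 m hm x0 l _ y hy z hz => hH k h1 h2 m hm x0 l y hy z hz)
  simp only [triv_one] at h
  refine le_trans (le_of_eq ?_) h
  congr 1
  funext k
  exact catm1_eq _ _ _

end one

/-! ### Labels in `lbs L` (the letters of `H958/Enc`) -/

section lbs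

variable {L : ℕ}

/-- `g ⟨u, v⟩`, label at the first vertex: `u` on the edge `12`, `v` on `13`, `g` on `23` -/
def catL1 (L : ℕ) (g : ℤ × ℤ → ℝ) (u v : ℤ → ℤ × ℤ → ℝ) (y : ℤ × ℤ × ℤ) : ℝ :=
  ∑ l ∈ lbs L, atm (u l, v l, g) y

/-- label at the second vertex: `u` on the edge `12`, `v` on `23`, `g` on `13` -/
def catL2 (L : ℕ) (g : ℤ × ℤ → ℝ) (u v : ℤ → ℤ × ℤ → ℝ) (y : ℤ × ℤ × ℤ) : ℝ :=
  ∑ l ∈ lbs L, atm (u l, g, v l) y

/-- label at the third vertex: `u` on the edge `23`, `v` on `13`, `g` on `12` -/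
def catL3 (L : ℕ) (g : ℤ × ℤ → ℝ) (u v : ℤ → ℤ × ℤ → ℝ) (y : ℤ × ℤ × ℤ) : ℝ :=
  ∑ l ∈ lbs L, atm (g, v l, u l) y

theorem catL1_eq (g : ℤ × ℤ → ℝ) (u v : ℤ → ℤ × ℤ → ℝ) : catL1 L g u v =
    catm (fun (l : lbs L) (_ : Unit) => u l) (fun (l : lbs L) (_ : Unit) => v l)
      (fun _ _ : Unit => g) := by
  funext y
  simp only [catL1, catm, sum_const, card_univ, Fintype.card_unit, one_smul]
  exact (sum_coe_sort (lbs L) fun l => atm (u l, v l, g) y).symm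

theorem catL2_eq (g : ℤ × ℤ → ℝ) (u v : ℤ → ℤ × ℤ → ℝ) : catL2 L g u v =
    catm (fun (_ : Unit) (l : lbs L) => u l) (fun _ _ : Unit => g)
      (fun (l : lbs L) (_ : Unit) => v l) := by
  funext y
  simp only [catL2, catm, sum_const, card_univ, Fintype.card_unit, one_smul]
  exact (sum_coe_sort (lbs L) fun l => atm (u l, g, v l) y).symm

theorem catL3_eq (g : ℤ × ℤ → ℝ) (u v : ℤ → ℤ × ℤ → ℝ) : catL3 L g u v =
    catm (fun _ _ : Unit => g) (fun (_ : Unit) (l : lbs L) => v l)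
      (fun (_ : Unit) (l : lbs L) => u l) := by
  funext y
  simp only [catL3, catm, sum_const, card_univ, Fintype.card_unit, one_smul]
  exact (sum_coe_sort (lbs L) fun l => atm (g, v l, u l) y).symm

/-- **Label at the first vertex, in the letters of the encoding.** -/
theorem cosL1_le {al : ℕ → Pt → Prop} {o : ℤ} (ho : |o| = 1) {K : ℕ} (x : Pt)
    {g : ℕ → ℤ × ℤ → ℝ} {u v : ℕ → ℤ → ℤ × ℤ → ℝ} {F1 F2 F3 : ℕ → Pt → ℝ}
    {A : ℤ → ℕ → ℤ → ℤ → ℤ → ℝ} {B : ℤ → ℕ → ℤ → ℤ → ℝ} {H : ℤ → ℕ → ℤ → ℤ → ℤ → ℝ}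
    (hA : ∀ k, 1 ≤ k → k ≤ K → ∀ m, al k m → ∀ x0, ∀ l ∈ lbs L, ∀ y ∈ iv k m.1,
      ∀ z ∈ iv k m.2.1, A x0 k l y z = u k l (y, z) * F3 k (x0, y, z))
    (hB : ∀ k, 1 ≤ k → k ≤ K → ∀ m, al k m → ∀ x0, ∀ y ∈ iv k m.2.1, ∀ z ∈ iv k m.2.2,
      B x0 k y z = g k (y, z) * F1 k (x0, y, z))
    (hH : ∀ k, 1 ≤ k → k ≤ K → ∀ m, al k m → ∀ x0, ∀ l ∈ lbs L, ∀ y ∈ iv k m.1,
      ∀ z ∈ iv k m.2.2, H x0 k l y z = v k l (y, z) * F2 k (x0, y, z)) :
    cosM al o K x (fun k => catL1 L (g k) (u k) (v k)) F1 F2 F3 ≤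
      ∑ x0 ∈ XX K (cx K x), ∑ k ∈ Icc 1 K, (2 ^ k : ℝ)⁻¹ *
        ∑ m ∈ (cbs K (cx K x) k).filter (fun m => m.1 + m.2.1 + m.2.2 = o - 2 - ix k x0),
          |∑ l ∈ lbs L, tri k m (A x0 k l) (B x0 k) (H x0 k l)| := by
  have h := cosM_le (al := al) ho (K := K) x (a := fun k (l : lbs L) (_ : Unit) => u k l)
    (b := fun k (l : lbs L) (_ : Unit) => v k l) (c := fun k (_ _ : Unit) => g k) (F1 := F1)
    (F2 := F2) (F3 := F3) (A := fun x0 k (l : lbs L) (_ : Unit) => A x0 k l)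
    (B := fun x0 k (_ _ : Unit) => B x0 k) (H := fun x0 k (l : lbs L) (_ : Unit) => H x0 k l)
    (fun k h1 h2 m hm x0 l _ y hy z hz => hA k h1 h2 m hm x0 l l.2 y hy z hz)
    (fun k h1 h2 m hm x0 _ _ y hy z hz => hB k h1 h2 m hm x0 y hy z hz)
    (fun k h1 h2 m hm x0 l _ y hy z hz => hH k h1 h2 m hm x0 l l.2 y hy z hz)
  have e : ∀ x0 k m, triv k m (fun (l : lbs L) (_ : Unit) => A x0 k l) (fun _ _ : Unit => B x0 k)
      (fun (l : lbs L) (_ : Unit) => H x0 k l) =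
      ∑ l ∈ lbs L, tri k m (A x0 k l) (B x0 k) (H x0 k l) := by
    intro x0 k m
    simp only [triv, sum_const, card_univ, Fintype.card_unit, one_smul]
    exact sum_coe_sort (lbs L) fun l => tri k m (A x0 k l) (B x0 k) (H x0 k l)
  simp only [e] at h
  refine le_trans (le_of_eq ?_) h
  congr 1
  funext k
  exact catL1_eq _ _ _

/-- **Label at the second vertex, in the letters of the encoding.** -/
theorem cosL2_le {al : ℕ → Pt → Prop} {o : ℤ} (ho : |o| = 1) {K : ℕ} (x : Pt)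
    {g : ℕ → ℤ × ℤ → ℝ} {u v : ℕ → ℤ → ℤ × ℤ → ℝ} {F1 F2 F3 : ℕ → Pt → ℝ}
    {A : ℤ → ℕ → ℤ → ℤ → ℤ → ℝ} {B : ℤ → ℕ → ℤ → ℤ → ℤ → ℝ} {H : ℤ → ℕ → ℤ → ℤ → ℝ}
    (hA : ∀ k, 1 ≤ k → k ≤ K → ∀ m, al k m → ∀ x0, ∀ l ∈ lbs L, ∀ y ∈ iv k m.1,
      ∀ z ∈ iv k m.2.1, A x0 k l y z = u k l (y, z) * F3 k (x0, y, z))
    (hB : ∀ k, 1 ≤ k → k ≤ K → ∀ m, al k m → ∀ x0, ∀ l ∈ lbs L, ∀ y ∈ iv k m.2.1,
      ∀ z ∈ iv k m.2.2, B x0 k l y z = v k l (y, z) * F1 k (x0, y, z))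
    (hH : ∀ k, 1 ≤ k → k ≤ K → ∀ m, al k m → ∀ x0, ∀ y ∈ iv k m.1, ∀ z ∈ iv k m.2.2,
      H x0 k y z = g k (y, z) * F2 k (x0, y, z)) :
    cosM al o K x (fun k => catL2 L (g k) (u k) (v k)) F1 F2 F3 ≤
      ∑ x0 ∈ XX K (cx K x), ∑ k ∈ Icc 1 K, (2 ^ k : ℝ)⁻¹ *
        ∑ m ∈ (cbs K (cx K x) k).filter (fun m => m.1 + m.2.1 + m.2.2 = o - 2 - ix k x0),
          |∑ l ∈ lbs L, tri k m (A x0 k l) (B x0 k l) (H x0 k)| := by
  have h := cosM_le (al := al) ho (K := K) x (a := fun k (_ : Unit) (l : lbs L) => u k l)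
    (b := fun k (_ _ : Unit) => g k) (c := fun k (l : lbs L) (_ : Unit) => v k l) (F1 := F1)
    (F2 := F2) (F3 := F3) (A := fun x0 k (_ : Unit) (l : lbs L) => A x0 k l)
    (B := fun x0 k (l : lbs L) (_ : Unit) => B x0 k l) (H := fun x0 k (_ _ : Unit) => H x0 k)
    (fun k h1 h2 m hm x0 _ l y hy z hz => hA k h1 h2 m hm x0 l l.2 y hy z hz)
    (fun k h1 h2 m hm x0 l _ y hy z hz => hB k h1 h2 m hm x0 l l.2 y hy z hz)
    (fun k h1 h2 m hm x0 _ _ y hy z hz => hH k h1 h2 m hm x0 y hy z hz)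
  have e : ∀ x0 k m, triv k m (fun (_ : Unit) (l : lbs L) => A x0 k l)
      (fun (l : lbs L) (_ : Unit) => B x0 k l) (fun _ _ : Unit => H x0 k) =
      ∑ l ∈ lbs L, tri k m (A x0 k l) (B x0 k l) (H x0 k) := by
    intro x0 k m
    simp only [triv, sum_const, card_univ, Fintype.card_unit, one_smul]
    exact sum_coe_sort (lbs L) fun l => tri k m (A x0 k l) (B x0 k l) (H x0 k)
  simp only [e] at h
  refine le_trans (le_of_eq ?_) h
  congr 1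
  funext k
  exact catL2_eq _ _ _

/-- **Label at the third vertex, in the letters of the encoding.** -/
theorem cosL3_le {al : ℕ → Pt → Prop} {o : ℤ} (ho : |o| = 1) {K : ℕ} (x : Pt)
    {g : ℕ → ℤ × ℤ → ℝ} {u v : ℕ → ℤ → ℤ × ℤ → ℝ} {F1 F2 F3 : ℕ → Pt → ℝ}
    {A : ℤ → ℕ → ℤ → ℤ → ℝ} {B H : ℤ → ℕ → ℤ → ℤ → ℤ → ℝ}
    (hA : ∀ k, 1 ≤ k → k ≤ K → ∀ m, al k m → ∀ x0, ∀ y ∈ iv k m.1, ∀ z ∈ iv k m.2.1,
      A x0 k y z = g k (y, z) * F3 k (x0, y, z))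
    (hB : ∀ k, 1 ≤ k → k ≤ K → ∀ m, al k m → ∀ x0, ∀ l ∈ lbs L, ∀ y ∈ iv k m.2.1,
      ∀ z ∈ iv k m.2.2, B x0 k l y z = u k l (y, z) * F1 k (x0, y, z))
    (hH : ∀ k, 1 ≤ k → k ≤ K → ∀ m, al k m → ∀ x0, ∀ l ∈ lbs L, ∀ y ∈ iv k m.1,
      ∀ z ∈ iv k m.2.2, H x0 k l y z = v k l (y, z) * F2 k (x0, y, z)) :
    cosM al o K x (fun k => catL3 L (g k) (u k) (v k)) F1 F2 F3 ≤
      ∑ x0 ∈ XX K (cx K x), ∑ k ∈ Icc 1 K, (2 ^ k : ℝ)⁻¹ *
        ∑ m ∈ (cbs K (cx K x) k).filter (fun m => m.1 + m.2.1 + m.2.2 = o - 2 - ix k x0),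
          |∑ l ∈ lbs L, tri k m (A x0 k) (B x0 k l) (H x0 k l)| := by
  have h := cosM_le (al := al) ho (K := K) x (a := fun k (_ _ : Unit) => g k)
    (b := fun k (_ : Unit) (l : lbs L) => v k l) (c := fun k (_ : Unit) (l : lbs L) => u k l)
    (F1 := F1) (F2 := F2) (F3 := F3) (A := fun x0 k (_ _ : Unit) => A x0 k)
    (B := fun x0 k (_ : Unit) (l : lbs L) => B x0 k l)
    (H := fun x0 k (_ : Unit) (l : lbs L) => H x0 k l)
    (fun k h1 h2 m hm x0 _ _ y hy z hz => hA k h1 h2 m hm x0 y hy z hz)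
    (fun k h1 h2 m hm x0 _ l y hy z hz => hB k h1 h2 m hm x0 l l.2 y hy z hz)
    (fun k h1 h2 m hm x0 _ l y hy z hz => hH k h1 h2 m hm x0 l l.2 y hy z hz)
  have e : ∀ x0 k m, triv k m (fun _ _ : Unit => A x0 k)
      (fun (_ : Unit) (l : lbs L) => B x0 k l) (fun (_ : Unit) (l : lbs L) => H x0 k l) =
      ∑ l ∈ lbs L, tri k m (A x0 k) (B x0 k l) (H x0 k l) := by
    intro x0 k m
    simp only [triv, sum_const, card_univ, Fintype.card_unit, one_smul]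
    exact sum_coe_sort (lbs L) fun l => tri k m (A x0 k) (B x0 k l) (H x0 k l)
  simp only [e] at h
  refine le_trans (le_of_eq ?_) h
  congr 1
  funext k
  exact catL3_eq _ _ _

end lbs

/-! ### From any finite label set to `lbs L` -/

section pad

variable {κ : Type*} [Fintype κ] {L : ℕ}

/-- labels in `lbs L`, padded by zero -/
def pad {X : Type*} (e : κ → ℤ) (f : κ → X → ℝ) (l : ℤ) (x : X) : ℝ :=
  ∑ i, if e i = l then f i x else 0

theorem exists_pad (h : Fintype.card κ ≤ 2 ^ L) :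
    ∃ e : κ → ℤ, Function.Injective e ∧ ∀ i, e i ∈ lbs L := by
  have h1 : Fintype.card κ ≤ Fintype.card (lbs L) := by
    rw [Fintype.card_coe, card_lbs]
    exact h
  obtain ⟨f⟩ := Function.Embedding.nonempty_of_card_le h1
  exact ⟨fun i => f i, fun i j hij => f.injective (Subtype.ext hij), fun i => (f i).2⟩

theorem pad_mul {X Y : Type*} {e : κ → ℤ} (he : Function.Injective e) (f : κ → X → ℝ)
    (g : κ → Y → ℝ) (l : ℤ) (x : X) (y : Y) :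
    pad e f l x * pad e g l y = ∑ i, if e i = l then f i x * g i y else 0 := by
  unfold pad
  rw [sum_mul_sum]
  refine sum_congr rfl fun i _ => ?_
  rw [sum_eq_single i]
  · split_ifs <;> ring
  · intro j _ hj
    split_ifs with h1 h2
    · exact absurd (he (h2.trans h1.symm)) hj
    · ring
    · ring
    · ring
  · intro h
    exact absurd (mem_univ i) h

theorem sum_pad {e : κ → ℤ} (hm : ∀ i, e i ∈ lbs L) (F : κ → ℝ) :
    (∑ l ∈ lbs L, ∑ i, if e i = l then F i else 0) = ∑ i, F i := by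
  rw [sum_comm]
  refine sum_congr rfl fun i _ => ?_
  rw [sum_ite_eq, if_pos (hm i)]

theorem sum_pad_mul {X Y : Type*} {e : κ → ℤ} (he : Function.Injective e)
    (hm : ∀ i, e i ∈ lbs L) (f : κ → X → ℝ) (g : κ → Y → ℝ) (x : X) (y : Y) :
    ∑ l ∈ lbs L, pad e f l x * pad e g l y = ∑ i, f i x * g i y := by
  rw [sum_congr rfl fun l _ => pad_mul he f g l x y, sum_pad hm]

/-- the composite atoms with labels in `κ` and in `lbs L` -/
theorem catL1_pad {e : κ → ℤ} (he : Function.Injective e) (hm : ∀ i, e i ∈ lbs L)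
    (g : ℤ × ℤ → ℝ) (u v : κ → ℤ × ℤ → ℝ) :
    catL1 L g (pad e u) (pad e v) = catm1 g u v := by
  funext y
  unfold catL1 catm1 atm e12 e13 e23
  simp only
  rw [← sum_mul, sum_pad_mul he hm, sum_mul]

theorem catL2_pad {e : κ → ℤ} (he : Function.Injective e) (hm : ∀ i, e i ∈ lbs L)
    (g : ℤ × ℤ → ℝ) (u v : κ → ℤ × ℤ → ℝ) :
    catL2 L g (pad e u) (pad e v) = catm2 g u v := by
  funext y
  unfold catL2 catm2 atm e12 e13 e23
  simp only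
  have h := sum_pad_mul he hm u v (y.1, y.2.1) (y.2.1, y.2.2)
  calc _ = g (y.1, y.2.2) * ∑ l ∈ lbs L, pad e u l (y.1, y.2.1) * pad e v l (y.2.1, y.2.2) := by
        rw [mul_sum]; exact sum_congr rfl fun l _ => by ring
    _ = _ := by rw [h, mul_sum]; exact sum_congr rfl fun l _ => by ring

theorem catL3_pad {e : κ → ℤ} (he : Function.Injective e) (hm : ∀ i, e i ∈ lbs L)
    (g : ℤ × ℤ → ℝ) (u v : κ → ℤ × ℤ → ℝ) :
    catL3 L g (pad e u) (pad e v) = catm3 g v u := by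
  funext y
  unfold catL3 catm3 atm e12 e13 e23
  simp only
  have h := sum_pad_mul he hm v u (y.1, y.2.2) (y.2.1, y.2.2)
  calc _ = g (y.1, y.2.1) * ∑ l ∈ lbs L, pad e v l (y.1, y.2.2) * pad e u l (y.2.1, y.2.2) := by
        rw [mul_sum]; exact sum_congr rfl fun l _ => by ring
    _ = _ := by rw [h, mul_sum]; exact sum_congr rfl fun l _ => by ring

end pad

end

end Vale.Agent.P141.H572
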