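import Vale.Agent.P141.H572.Brg
import Vale.Agent.P141.H338.Lab4
import Vale.Agent.P141.H769.EN3

/-!
# P141, line W, squad CE: paths and energies of killed labelled kernels

* `Hds`: hereditary families of squares; `kil`: the squares where the kill happens;
* `PkQ`: local packing; `pkQ_kil`, `PkQ.or`, `PkQ.packQ`;
* `Qkk`: the affected squares of a killed kernel (landed changes); `qkk_pkQ`, `kk_path`,
  `kk0_path`, `kk_path_mv`, `km_agree'`;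
* `aff_sum`: sums over `x₀` of energies over the affected squares; `own4L_sum`, `own4R_sum`,
  `own4_sum`, `pwr_sum`, `pwrL_sum`;
* `s4L_kk_le`, ...: the moments of a killed kernel from the moments on the alive squares.
-/

namespace Vale.Agent.P141.H572

open Finset
open Vale.Agent.P141.PL (Pt iv cx ix mem_iv cb mem_cb ix_ix)
open Vale.Agent.P141.H958 (lbs Aff PackQ s4 s4_nonneg pwr sum_Aff mem_Aff)
open Vale.Agent.P141.H736 (Path Agree sqb sqQ sqb_nonneg)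
open Vale.Agent.P141.H338 (own4L own4R s4L s4R s4L_nonneg s4R_nonneg)
open Vale.Agent.P141.H48 (own4)
open Vale.Agent.P141.H769 (ix_of_le slice_sum sq_pts aff_filter_le corner pt_pack)

noncomputable section

open scoped Classical

/-! ### Families of squares -/

/-- hereditary families of squares -/
def Hds (S : ℕ → ℤ → ℤ → Prop) : Prop := ∀ k m1 m2, S k m1 m2 → S (k + 1) (ix 1 m1) (ix 1 m2)

theorem Hds.up {S : ℕ → ℤ → ℤ → Prop} (h : Hds S) {k : ℕ} (j : ℕ) {m1 m2 : ℤ} (h1 : S k m1 m2) :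
    S (k + j) (ix j m1) (ix j m2) := by
  induction j with
  | zero => simpa [ix] using h1
  | succ j ih =>
    have h2 := h _ _ _ ih
    rw [ix_ix, ix_ix] at h2
    exact h2

theorem Hds.pt {S : ℕ → ℤ → ℤ → Prop} (h : Hds S) {k l : ℕ} (hkl : k ≤ l) {x y : ℤ}
    (h1 : S k (ix k x) (ix k y)) : S l (ix l x) (ix l y) := by
  obtain ⟨j, rfl⟩ := Nat.exists_eq_add_of_le hkl
  have h2 := h.up j h1
  rw [ix_ix, ix_ix] at h2
  exact h2

theorem Hds.and {S S' : ℕ → ℤ → ℤ → Prop} (h : Hds S) (h' : Hds S') :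
    Hds (fun k m1 m2 => S k m1 m2 ∧ S' k m1 m2) := fun k m1 m2 h1 =>
  ⟨h k m1 m2 h1.1, h' k m1 m2 h1.2⟩

/-- the squares where the kill happens -/
def kil (S : ℕ → ℤ → ℤ → Prop) (k : ℕ) (r s : ℤ) : Prop :=
  S (k + 1) (ix 1 r) (ix 1 s) ∧ ¬ S k r s

/-- local packing of a family of squares -/
def PkQ (N : ℕ) (c : ℝ) (P : ℕ → ℤ → ℤ → Prop) : Prop :=
  ∀ K ≤ N, ∀ r s : ℤ, ∑ k ∈ range (K + 1), ∑ r' ∈ iv (K - k) r, ∑ s' ∈ iv (K - k) s,
    (if P k r' s' then (4 : ℝ) ^ k else 0) ≤ c * 4 ^ K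

theorem PkQ.mono {N : ℕ} {c c' : ℝ} {P : ℕ → ℤ → ℤ → Prop} (h : PkQ N c P) (hc : c ≤ c') :
    PkQ N c' P := fun K hK r s =>
  (h K hK r s).trans (mul_le_mul_of_nonneg_right hc (by positivity))

theorem PkQ.le {N N' : ℕ} {c : ℝ} {P : ℕ → ℤ → ℤ → Prop} (h : PkQ N c P) (hN : N' ≤ N) :
    PkQ N' c P := fun K hK r s => h K (hK.trans hN) r s

theorem PkQ.sub {N : ℕ} {c : ℝ} {P P' : ℕ → ℤ → ℤ → Prop} (h : PkQ N c P)
    (hP : ∀ k r s, P' k r s → P k r s) : PkQ N c P' := by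
  intro K hK r s
  refine (sum_le_sum fun k _ => sum_le_sum fun r' _ => sum_le_sum fun s' _ => ?_).trans (h K hK r s)
  have h4 : (0 : ℝ) < 4 ^ k := by positivity
  split_ifs with h1 h2
  · exact le_rfl
  · exact absurd (hP _ _ _ h1) h2
  · exact h4.le
  · exact le_rfl

theorem PkQ.or {N : ℕ} {c c' : ℝ} {P P' : ℕ → ℤ → ℤ → Prop} (h : PkQ N c P) (h' : PkQ N c' P') :
    PkQ N (c + c') (fun k r s => P k r s ∨ P' k r s) := by
  intro K hK r s
  have h1 : ∀ k r' s', (@ite ℝ (P k r' s' ∨ P' k r' s') (Classical.propDecidable _)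
      ((4 : ℝ) ^ k) 0) ≤
      (if P k r' s' then (4 : ℝ) ^ k else 0) + (if P' k r' s' then (4 : ℝ) ^ k else 0) := by
    intro k r' s'
    have h4 : (0 : ℝ) < 4 ^ k := by positivity
    split_ifs <;> first | linarith | tauto
  refine (sum_le_sum fun k _ => sum_le_sum fun r' _ => sum_le_sum fun s' _ => h1 k r' s').trans ?_
  simp only [sum_add_distrib]
  rw [add_mul]
  exact add_le_add (h K hK r s) (h' K hK r s)

/-- the form of `H958` -/
theorem PkQ.packQ {N : ℕ} {c : ℝ} {P : ℕ → ℤ → ℤ → Prop} (h : PkQ N c P) (R S : ℤ) :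
    PackQ N R S P c := by
  intro K hK n' m'
  exact (aff_filter_le _ n' m').trans (h K hK n' m')

/-- the root form -/
theorem PkQ.root {N : ℕ} {c : ℝ} {P : ℕ → ℤ → ℤ → Prop} (h : PkQ N c P) (R S : ℤ) :
    ∑ k ∈ range N, ∑ m ∈ iv (N - k) S, ∑ r ∈ iv (N - k) R,
      (if P k r m then (4 : ℝ) ^ k else 0) ≤ c * 4 ^ N := by
  refine le_trans ?_ (h N le_rfl R S)
  rw [sum_range_succ]
  have h0 : 0 ≤ ∑ r' ∈ iv (N - N) R, ∑ s' ∈ iv (N - N) S,
      (if P N r' s' then (4 : ℝ) ^ N else 0) := by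
    refine sum_nonneg fun _ _ => sum_nonneg fun _ _ => ?_
    split_ifs
    · positivity
    · exact le_rfl
  refine (le_of_eq ?_).trans (le_add_of_nonneg_right h0)
  exact sum_congr rfl fun k _ => sum_comm

theorem pkQ_pt (N : ℕ) : PkQ N 1 (fun k _ _ => k = 0) := fun K _ r s => by
  rw [one_mul]
  refine (le_of_eq ?_).trans (pt_pack K r s).le
  refine sum_congr rfl fun k _ => sum_congr rfl fun _ _ => sum_congr rfl fun _ _ => ?_
  by_cases hk : k = 0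
  · simp [hk]
  · simp [hk]

/-- a family of squares which contains every point at most once -/
theorem pkQ_of_disj {P : ℕ → ℤ → ℤ → Prop}
    (hd : ∀ k l x y, P k (ix k x) (ix k y) → P l (ix l x) (ix l y) → k = l) (N : ℕ) :
    PkQ N 1 P := by
  intro K _ r s
  have h1 : ∀ k ∈ range (K + 1), ∑ r' ∈ iv (K - k) r, ∑ s' ∈ iv (K - k) s,
      (if P k r' s' then (4 : ℝ) ^ k else 0) =
      ∑ x ∈ iv K r, ∑ y ∈ iv K s, H48.ind (P k (ix k x) (ix k y)) := by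
    intro k hk
    have hkK : k ≤ K := by have := mem_range.1 hk; omega
    rw [← sq_pts hkK r s]
    refine sum_congr rfl fun r' _ => sum_congr rfl fun s' _ => ?_
    have h2 : ∀ x ∈ iv k r', ∀ y ∈ iv k s', H48.ind (P k (ix k x) (ix k y)) =
        H48.ind (P k r' s') := by
      intro x hx y hy
      rw [mem_iv.1 hx, mem_iv.1 hy]
    rw [sum_congr rfl fun x hx => sum_congr rfl fun y hy => h2 x hx y hy]
    simp only [sum_const, PL.card_iv, nsmul_eq_mul]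
    have h3 : (2 : ℝ) ^ k * 2 ^ k = 4 ^ k := by rw [← mul_pow]; norm_num
    unfold H48.ind
    split_ifs
    · push_cast
      rw [mul_one, h3]
    · push_cast
      simp
  rw [sum_congr rfl h1, sum_comm, one_mul]
  have h4 : ∀ x ∈ iv K r, ∑ k ∈ range (K + 1), ∑ y ∈ iv K s, H48.ind (P k (ix k x) (ix k y)) ≤
      ∑ y ∈ iv K s, (1 : ℝ) := by
    intro x _
    rw [sum_comm]
    refine sum_le_sum fun y _ => ?_
    exact H48.sum_ind_le_one (fun k l => hd k l x y) _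
  refine (sum_le_sum h4).trans (le_of_eq ?_)
  simp only [sum_const, PL.card_iv, nsmul_eq_mul, mul_one]
  push_cast
  rw [← mul_pow]
  norm_num

/-- the kill happens at most once -/
theorem pkQ_kil {S : ℕ → ℤ → ℤ → Prop} (h : Hds S) (N : ℕ) : PkQ N 1 (kil S) := by
  refine pkQ_of_disj (fun k l x y hk hl => ?_) N
  have key : ∀ k l : ℕ, k < l → kil S k (ix k x) (ix k y) → kil S l (ix l x) (ix l y) → False := by
    intro k l hkl h1 h2
    have h3 := h1.1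
    rw [ix_ix, ix_ix] at h3
    exact h2.2 (h.pt hkl h3)
  rcases lt_trichotomy k l with h1 | h1 | h1
  · exact (key k l h1 hk hl).elim
  · exact h1
  · exact (key l k h1 hl hk).elim

/-! ### The paths -/

/-- the affected squares of a killed kernel: the landed changes -/
def Qkk (S : ℕ → ℤ → ℤ → Prop) (Q : ℕ → Pt → Prop) (x0 : ℤ) (k : ℕ) (r s : ℤ) : Prop :=
  k = 0 ∨ Q k (ix k x0, r, s) ∨ kil S k r s

/-- the same, cubes -/
def Qkc (S : ℕ → ℤ → ℤ → Prop) (Q : ℕ → Pt → Prop) (k : ℕ) (m : Pt) : Prop :=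
  k = 0 ∨ Q k m ∨ kil S k m.2.1 m.2.2

theorem Qkk_eq (S : ℕ → ℤ → ℤ → Prop) (Q : ℕ → Pt → Prop) (x0 : ℤ) (k : ℕ) (r s : ℤ) :
    Qkk S Q x0 k r s = Qkc S Q k (ix k x0, r, s) := rfl

theorem qkk_pkQ {S : ℕ → ℤ → ℤ → Prop} (hS : Hds S) {Q : ℕ → Pt → Prop} {n : ℕ} {cP : ℝ}
    (x0 : ℤ) (hQ : PkQ n cP fun k r s => Q k (ix k x0, r, s)) :
    PkQ n (cP + 2) (Qkk S Q x0) := by
  have h := (pkQ_pt n).or (hQ.or (pkQ_kil hS n))
  refine (h.mono (by linarith)).sub fun k r s hq => ?_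
  exact hq

theorem bsl_pkQ {n : ℕ} {e cP : ℝ} {F : ℕ → Pt → ℝ} {Q : ℕ → Pt → Prop}
    (h : H48.BSl n e cP F Q) (x0 : ℤ) : PkQ n cP fun k r s => Q k (ix k x0, r, s) :=
  h.pack x0

section path

variable {S : ℕ → ℤ → ℤ → Prop} {Q : ℕ → Pt → Prop} {F : ℕ → Pt → ℝ} {n N : ℕ} {R T x0 : ℤ}

/-- **The path of a killed labelled kernel**, moving edge: `E` the squares where the edge
changes. -/
theorem kk_path_mv (hF : ∀ k, 1 ≤ k → k < n → ∀ m : Pt, ¬ Q k m → ∀ y ∈ cb k m,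
      F (k + 1) y = F k y) (hS : Hds S) (hN : N ≤ n) {a : ℕ → ℤ → ℤ → ℤ → ℝ}
    {E : ℕ → ℤ → ℤ → Prop} {l : ℤ}
    (ha : ∀ k, 1 ≤ k → k < N → ∀ r s, S k r s → ¬ E k r s → ∀ x ∈ iv k r, ∀ y ∈ iv k s,
      a (k + 1) l x y = a k l x y) :
    Path N R T (fun k r s => Qkk S Q x0 k r s ∨ E k r s) (fun k => kk S a F x0 k l) := by
  intro k hk r _ s _ hq x hx y hy
  rw [mem_iv] at hx hy
  unfold Qkk at hq
  push Not at hq
  obtain ⟨⟨hk0, hq1, hq2⟩, hE⟩ := hq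
  have e1 : ix (k + 1) x = ix 1 r := by rw [← hx, ix_ix]
  have e2 : ix (k + 1) y = ix 1 s := by rw [← hy, ix_ix]
  show kk S a F x0 (k + 1) l x y = kk S a F x0 k l x y
  unfold kk
  rw [e1, e2, hx, hy]
  by_cases hs : S k r s
  · have hs' := hS k r s hs
    rw [if_neg (by push Not; exact ⟨by omega, hs'⟩), if_neg (by push Not; exact ⟨hk0, hs⟩)]
    rw [ha k (by omega) hk r s hs hE x (mem_iv.2 hx) y (mem_iv.2 hy),
      hF k (by omega) (by omega) (ix k x0, r, s) hq1 (x0, x, y) (by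
        rw [mem_cb]; unfold cx; rw [hx, hy])]
  · have hs' : ¬ S (k + 1) (ix 1 r) (ix 1 s) := fun h => hq2 ⟨h, hs⟩
    rw [if_pos (Or.inr hs'), if_pos (Or.inr hs)]

/-- static edge -/
theorem kk_path (hF : ∀ k, 1 ≤ k → k < n → ∀ m : Pt, ¬ Q k m → ∀ y ∈ cb k m,
      F (k + 1) y = F k y) (hS : Hds S) (hN : N ≤ n) (a : ℤ → ℤ → ℤ → ℝ) (l : ℤ) :
    Path N R T (Qkk S Q x0) (fun k => kk S (fun _ => a) F x0 k l) := by
  have h := kk_path_mv (S := S) (Q := Q) (R := R) (T := T) (x0 := x0) hF hS hN (a := fun _ => a)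
    (E := fun _ _ _ => False) (l := l) (fun _ _ _ _ _ _ _ _ _ _ _ => rfl)
  intro k hk r hr s hs hq
  exact h k hk r hr s hs (by simpa using hq)

theorem kk0_eq_kk (a : ℕ → ℤ → ℤ → ℝ) (l : ℤ) :
    (fun k => kk0 S a F x0 k) = fun k => kk S (fun k _ => a k) F x0 k l := by
  funext k x y
  rfl

theorem kk0_path_mv (hF : ∀ k, 1 ≤ k → k < n → ∀ m : Pt, ¬ Q k m → ∀ y ∈ cb k m,
      F (k + 1) y = F k y) (hS : Hds S) (hN : N ≤ n) {a : ℕ → ℤ → ℤ → ℝ}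
    {E : ℕ → ℤ → ℤ → Prop}
    (ha : ∀ k, 1 ≤ k → k < N → ∀ r s, S k r s → ¬ E k r s → ∀ x ∈ iv k r, ∀ y ∈ iv k s,
      a (k + 1) x y = a k x y) :
    Path N R T (fun k r s => Qkk S Q x0 k r s ∨ E k r s) (fun k => kk0 S a F x0 k) := by
  rw [kk0_eq_kk a 0]
  exact kk_path_mv hF hS hN ha

theorem kk0_path (hF : ∀ k, 1 ≤ k → k < n → ∀ m : Pt, ¬ Q k m → ∀ y ∈ cb k m,
      F (k + 1) y = F k y) (hS : Hds S) (hN : N ≤ n) (a : ℤ → ℤ → ℝ) :
    Path N R T (Qkk S Q x0) (fun k => kk0 S (fun _ => a) F x0 k) := by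
  rw [kk0_eq_kk (fun _ => a) 0]
  exact kk_path hF hS hN (fun _ => a) 0

/-- **The part of a step which is not a label event**, all the scales. -/
theorem km_agree' (hF : ∀ k, 1 ≤ k → k < n → ∀ m : Pt, ¬ Q k m → ∀ y ∈ cb k m,
      F (k + 1) y = F k y) (hS : Hds S) (hN : N ≤ n) (a : ℕ → ℤ → ℤ → ℤ → ℝ) {k : ℕ}
    (hk : k < N) (l : ℤ) :
    Agree N R T k (Qkk S Q x0 k) (km S a F x0 k l) (kk S a F x0 k l) := by
  intro r hr s hs hq
  unfold Qkk at hq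
  push Not at hq
  exact km_agree (N := N) (R := R) (T := T) (hF k (by omega) (by omega)) (hS k) (by omega) l r hr
    s hs (by
      rintro (h | h)
      · exact hq.2.1 h
      · exact hq.2.2 h)

end path

/-! ### Sums over `x₀` -/

section sums

variable {K : ℕ} {t0 R T : ℤ} {c μ : ℝ} {P : ℕ → Pt → Prop}

/-- **Energies over the affected squares, summed over `x₀`.** -/
theorem aff_sum {f : ℤ → ℕ → ℤ → ℤ → ℝ} (hμ : 0 ≤ μ)
    (hf : ∀ k < K, ∀ q0, ∀ r ∈ iv (K - k) R, ∀ s ∈ iv (K - k) T,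
      ∑ x0 ∈ iv k q0, f x0 k r s ≤ 2 ^ k * μ)
    (hP : ∀ x0, PkQ K c fun k r s => P k (ix k x0, r, s)) :
    ∑ x0 ∈ iv K t0, ∑ i ∈ Aff K R T (fun k r s => P k (ix k x0, r, s)),
      (4 : ℝ) ^ i.1 * f x0 i.1 i.2.1 i.2.2 ≤ c * μ * 8 ^ K := by
  have e1 : ∀ x0 ∈ iv K t0, ∑ i ∈ Aff K R T (fun k r s => P k (ix k x0, r, s)),
      (4 : ℝ) ^ i.1 * f x0 i.1 i.2.1 i.2.2 =
      ∑ k ∈ range K, ∑ m ∈ iv (K - k) T, ∑ r ∈ iv (K - k) R,
        (if P k (ix k x0, r, m) then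
          (if ix (K - k) r = R ∧ ix (K - k) m = T then 4 ^ k * f x0 k r m else 0) else 0) := by
    intro x0 _
    rw [sum_Aff]
    refine sum_congr rfl fun k _ => sum_congr rfl fun m hm => sum_congr rfl fun r hr => ?_
    rw [if_pos (show ix (K - k) r = R ∧ ix (K - k) m = T from ⟨mem_iv.1 hr, mem_iv.1 hm⟩)]
  rw [sum_congr rfl e1]
  refine slice_sum hμ ?_ fun x0 => (hP x0).root R T
  intro k hk q0 r m
  by_cases hh : ix (K - k) r = R ∧ ix (K - k) m = T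
  · simp only [if_pos hh]
    rw [← mul_sum]
    have h8 : (8 : ℝ) ^ k = 4 ^ k * 2 ^ k := by rw [← mul_pow]; norm_num
    rw [h8, mul_assoc]
    exact mul_le_mul_of_nonneg_left (hf k hk q0 r (mem_iv.2 hh.1) m (mem_iv.2 hh.2))
      (by positivity)
  · simp only [if_neg hh, sum_const_zero]
    positivity

/-- label on the left -/
theorem own4L_sum {L : ℕ} {A : ℤ → ℕ → ℤ → ℤ → ℤ → ℝ} (hμ : 0 ≤ μ)
    (hA : ∀ k < K, ∀ q0, ∀ r ∈ iv (K - k) R, ∀ s ∈ iv (K - k) T,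
      ∑ x0 ∈ iv k q0, s4L L k k (A x0 (k + 1)) r s ≤ 2 ^ k * μ)
    (hP : ∀ x0, PkQ K c fun k r s => P k (ix k x0, r, s)) :
    ∑ x0 ∈ iv K t0, own4L L K R T (fun k r s => P k (ix k x0, r, s)) (A x0) ≤ c * μ * 8 ^ K :=
  aff_sum (f := fun x0 k r s => s4L L k k (A x0 (k + 1)) r s) hμ hA hP

/-- label on the right -/
theorem own4R_sum {L : ℕ} {A : ℤ → ℕ → ℤ → ℤ → ℤ → ℝ} (hμ : 0 ≤ μ)
    (hA : ∀ k < K, ∀ q0, ∀ r ∈ iv (K - k) R, ∀ s ∈ iv (K - k) T,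
      ∑ x0 ∈ iv k q0, s4R L k k (A x0 (k + 1)) r s ≤ 2 ^ k * μ)
    (hP : ∀ x0, PkQ K c fun k r s => P k (ix k x0, r, s)) :
    ∑ x0 ∈ iv K t0, own4R L K R T (fun k r s => P k (ix k x0, r, s)) (A x0) ≤ c * μ * 8 ^ K :=
  aff_sum (f := fun x0 k r s => s4R L k k (A x0 (k + 1)) r s) hμ hA hP

/-- no label -/
theorem own4_sum {A : ℤ → ℕ → ℤ → ℤ → ℝ} (hμ : 0 ≤ μ)
    (hA : ∀ k < K, ∀ q0, ∀ r ∈ iv (K - k) R, ∀ s ∈ iv (K - k) T,
      ∑ x0 ∈ iv k q0, s4 k k (A x0 (k + 1)) r s ≤ 2 ^ k * μ)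
    (hP : ∀ x0, PkQ K c fun k r s => P k (ix k x0, r, s)) :
    ∑ x0 ∈ iv K t0, own4 K R T (fun k r s => P k (ix k x0, r, s)) (A x0) ≤ c * μ * 8 ^ K :=
  aff_sum (f := fun x0 k r s => s4 k k (A x0 (k + 1)) r s) hμ hA hP

/-- the square energies -/
theorem pwr_sum {A : ℤ → ℕ → ℤ → ℤ → ℝ} (hμ : 0 ≤ μ)
    (hA : ∀ k < K, ∀ q0, ∀ r ∈ iv (K - k) R, ∀ s ∈ iv (K - k) T,
      ∑ x0 ∈ iv k q0, sqb k r s (A x0 (k + 1)) ≤ 8 ^ k * μ)
    (hP : ∀ x0, PkQ K c fun k r s => P k (ix k x0, r, s)) :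
    ∑ x0 ∈ iv K t0, pwr K R T (fun k r s => P k (ix k x0, r, s)) (A x0) ≤ c * μ * 8 ^ K := by
  have e1 : ∀ x0 ∈ iv K t0, pwr K R T (fun k r s => P k (ix k x0, r, s)) (A x0) =
      ∑ k ∈ range K, ∑ m ∈ iv (K - k) T, ∑ r ∈ iv (K - k) R,
        (if P k (ix k x0, r, m) then
          (if ix (K - k) r = R ∧ ix (K - k) m = T then sqb k r m (A x0 (k + 1)) else 0)
            else 0) := by
    intro x0 _
    unfold pwr sqQ
    refine sum_congr rfl fun k _ => sum_congr rfl fun m hm => sum_congr rfl fun r hr => ?_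
    rw [if_pos (show ix (K - k) r = R ∧ ix (K - k) m = T from ⟨mem_iv.1 hr, mem_iv.1 hm⟩)]
  rw [sum_congr rfl e1]
  refine slice_sum hμ ?_ fun x0 => (hP x0).root R T
  intro k hk q0 r m
  by_cases hh : ix (K - k) r = R ∧ ix (K - k) m = T
  · simp only [if_pos hh]
    exact hA k hk q0 r (mem_iv.2 hh.1) m (mem_iv.2 hh.2)
  · simp only [if_neg hh, sum_const_zero]
    positivity

/-- the square energies, summed over the labels -/
theorem pwrL_sum {L : ℕ} {A : ℤ → ℕ → ℤ → ℤ → ℤ → ℝ} (hμ : 0 ≤ μ)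
    (hA : ∀ k < K, ∀ q0, ∀ r ∈ iv (K - k) R, ∀ s ∈ iv (K - k) T,
      ∑ x0 ∈ iv k q0, ∑ l ∈ lbs L, sqb k r s (A x0 (k + 1) l) ≤ 8 ^ k * μ)
    (hP : ∀ x0, PkQ K c fun k r s => P k (ix k x0, r, s)) :
    ∑ x0 ∈ iv K t0, ∑ l ∈ lbs L, pwr K R T (fun k r s => P k (ix k x0, r, s))
      (fun k => A x0 k l) ≤ c * μ * 8 ^ K := by
  have e1 : ∀ x0 ∈ iv K t0, ∑ l ∈ lbs L, pwr K R T (fun k r s => P k (ix k x0, r, s))
      (fun k => A x0 k l) =
      ∑ k ∈ range K, ∑ m ∈ iv (K - k) T, ∑ r ∈ iv (K - k) R,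
        (if P k (ix k x0, r, m) then
          (if ix (K - k) r = R ∧ ix (K - k) m = T then ∑ l ∈ lbs L, sqb k r m (A x0 (k + 1) l)
            else 0) else 0) := by
    intro x0 _
    unfold pwr sqQ
    rw [sum_comm]
    refine sum_congr rfl fun k _ => ?_
    rw [sum_comm]
    refine sum_congr rfl fun m hm => ?_
    rw [sum_comm]
    refine sum_congr rfl fun r hr => ?_
    rw [if_pos (show ix (K - k) r = R ∧ ix (K - k) m = T from ⟨mem_iv.1 hr, mem_iv.1 hm⟩)]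
    split_ifs
    · rfl
    · exact sum_const_zero
  rw [sum_congr rfl e1]
  refine slice_sum hμ ?_ fun x0 => (hP x0).root R T
  intro k hk q0 r m
  by_cases hh : ix (K - k) r = R ∧ ix (K - k) m = T
  · simp only [if_pos hh]
    exact hA k hk q0 r (mem_iv.2 hh.1) m (mem_iv.2 hh.2)
  · simp only [if_neg hh, sum_const_zero]
    positivity

end sums

/-! ### Blocks of a killed kernel -/

section blocks

variable {S : ℕ → ℤ → ℤ → Prop} {F : ℕ → Pt → ℝ} {x0 : ℤ} {k : ℕ} {r s : ℤ}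

/-- inside an alive parent -/
theorem kk_alive (h : S (k + 1) (ix 1 r) (ix 1 s)) (a : ℕ → ℤ → ℤ → ℤ → ℝ) (l : ℤ) {x y : ℤ}
    (hx : x ∈ iv k r) (hy : y ∈ iv k s) :
    kk S a F x0 (k + 1) l x y = a (k + 1) l x y * F (k + 1) (x0, x, y) := by
  rw [mem_iv] at hx hy
  refine kk_of (by omega) h ?_ ?_ l
  · rw [mem_iv, ← hx, ix_ix]
  · rw [mem_iv, ← hy, ix_ix]

/-- inside a killed parent -/
theorem kk_dead (h : ¬ S (k + 1) (ix 1 r) (ix 1 s)) (a : ℕ → ℤ → ℤ → ℤ → ℝ) (l : ℤ) {x y : ℤ}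
    (hx : x ∈ iv k r) (hy : y ∈ iv k s) : kk S a F x0 (k + 1) l x y = 0 := by
  rw [mem_iv] at hx hy
  unfold kk
  rw [if_pos]
  right
  have e1 : ix (k + 1) x = ix 1 r := by rw [← hx, ix_ix]
  have e2 : ix (k + 1) y = ix 1 s := by rw [← hy, ix_ix]
  rw [e1, e2]
  exact h

theorem s4L_congr {L a b : ℕ} {A A' : ℤ → ℤ → ℤ → ℝ} {n m : ℤ}
    (h : ∀ l ∈ lbs L, ∀ x ∈ iv a n, ∀ y ∈ iv b m, A l x y = A' l x y) :
    s4L L a b A n m = s4L L a b A' n m := by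
  unfold s4L
  congr 1
  refine sum_congr rfl fun y hy => sum_congr rfl fun y' hy' => ?_
  congr 1
  exact sum_congr rfl fun x hx => sum_congr rfl fun l hl => by
    rw [h l hl x hx y hy, h l hl x hx y' hy']

theorem s4R_congr {L a b : ℕ} {A A' : ℤ → ℤ → ℤ → ℝ} {n m : ℤ}
    (h : ∀ l ∈ lbs L, ∀ x ∈ iv a n, ∀ y ∈ iv b m, A l x y = A' l x y) :
    s4R L a b A n m = s4R L a b A' n m := by
  unfold s4R
  congr 1
  refine sum_congr rfl fun x hx => sum_congr rfl fun x' hx' => ?_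
  congr 1
  exact sum_congr rfl fun y hy => sum_congr rfl fun l hl => by
    rw [h l hl x hx y hy, h l hl x' hx' y hy]

theorem s4L_zero (L a b : ℕ) (n m : ℤ) : s4L L a b (fun _ _ _ => 0) n m = 0 := by
  unfold s4L
  simp

theorem s4R_zero (L a b : ℕ) (n m : ℤ) : s4R L a b (fun _ _ _ => 0) n m = 0 := by
  unfold s4R
  simp

variable {L : ℕ} {μ : ℝ} {q0 : ℤ}

/-- the moments on the alive squares are enough, label on the left -/
theorem s4L_kk_le (hμ : 0 ≤ μ) {a : ℕ → ℤ → ℤ → ℤ → ℝ}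
    (h : S (k + 1) (ix 1 r) (ix 1 s) →
      ∑ x0 ∈ iv k q0, s4L L k k (fun l x y => a (k + 1) l x y * F (k + 1) (x0, x, y)) r s ≤ μ) :
    ∑ x0 ∈ iv k q0, s4L L k k (fun l x y => kk S a F x0 (k + 1) l x y) r s ≤ μ := by
  by_cases hs : S (k + 1) (ix 1 r) (ix 1 s)
  · refine le_trans (le_of_eq ?_) (h hs)
    exact sum_congr rfl fun x0 _ => s4L_congr fun l _ x hx y hy => kk_alive hs a l hx hy
  · refine le_trans (le_of_eq ?_) hμ
    refine sum_eq_zero fun x0 _ => ?_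
    rw [s4L_congr (A' := fun _ _ _ => 0) fun l _ x hx y hy => kk_dead hs a l hx hy, s4L_zero]

/-- label on the right -/
theorem s4R_kk_le (hμ : 0 ≤ μ) {a : ℕ → ℤ → ℤ → ℤ → ℝ}
    (h : S (k + 1) (ix 1 r) (ix 1 s) →
      ∑ x0 ∈ iv k q0, s4R L k k (fun l x y => a (k + 1) l x y * F (k + 1) (x0, x, y)) r s ≤ μ) :
    ∑ x0 ∈ iv k q0, s4R L k k (fun l x y => kk S a F x0 (k + 1) l x y) r s ≤ μ := by
  by_cases hs : S (k + 1) (ix 1 r) (ix 1 s)
  · refine le_trans (le_of_eq ?_) (h hs)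
    exact sum_congr rfl fun x0 _ => s4R_congr fun l _ x hx y hy => kk_alive hs a l hx hy
  · refine le_trans (le_of_eq ?_) hμ
    refine sum_eq_zero fun x0 _ => ?_
    rw [s4R_congr (A' := fun _ _ _ => 0) fun l _ x hx y hy => kk_dead hs a l hx hy, s4R_zero]

/-- no label -/
theorem s4_kk0_le (hμ : 0 ≤ μ) {a : ℕ → ℤ → ℤ → ℝ}
    (h : S (k + 1) (ix 1 r) (ix 1 s) →
      ∑ x0 ∈ iv k q0, s4 k k (fun x y => a (k + 1) x y * F (k + 1) (x0, x, y)) r s ≤ μ) :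
    ∑ x0 ∈ iv k q0, s4 k k (kk0 S a F x0 (k + 1)) r s ≤ μ := by
  by_cases hs : S (k + 1) (ix 1 r) (ix 1 s)
  · refine le_trans (le_of_eq ?_) (h hs)
    exact sum_congr rfl fun x0 _ => H769.s4_congr fun x hx y hy =>
      kk_alive hs (fun k _ => a k) 0 hx hy
  · refine le_trans (le_of_eq ?_) hμ
    refine sum_eq_zero fun x0 _ => ?_
    have h2 : s4 k k (kk0 S a F x0 (k + 1)) r s = s4 k k (fun _ _ => 0) r s :=
      H769.s4_congr fun x hx y hy => kk_dead hs (fun k _ => a k) 0 hx hy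
    rw [h2, H769.s4_zero]

/-- **the square energy of a block of a killed labelled kernel**: line energies of the companion
and the mass of the edge -/
theorem sqb_kk_le {e m : ℝ} (he : 0 ≤ e) (hm : 0 ≤ m) {a : ℕ → ℤ → ℤ → ℤ → ℝ}
    (hF : ∀ x y : ℤ, ∑ z ∈ iv k q0, F (k + 1) (z, x, y) ^ 2 ≤ e * 2 ^ k)
    (h : S (k + 1) (ix 1 r) (ix 1 s) →
      ∑ x ∈ iv k r, ∑ y ∈ iv k s, ∑ l ∈ lbs L, a (k + 1) l x y ^ 2 ≤ 4 ^ k * m) :
    ∑ x0 ∈ iv k q0, ∑ l ∈ lbs L, sqb k r s (kk S a F x0 (k + 1) l) ≤ 8 ^ k * (e * m) := by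
  by_cases hs : S (k + 1) (ix 1 r) (ix 1 s)
  · have e1 : ∀ x0 ∈ iv k q0, ∑ l ∈ lbs L, sqb k r s (kk S a F x0 (k + 1) l) =
        ∑ l ∈ lbs L, ∑ x ∈ iv k r, ∑ y ∈ iv k s,
          a (k + 1) l x y ^ 2 * F (k + 1) (x0, x, y) ^ 2 := by
      intro x0 _
      refine sum_congr rfl fun l _ => ?_
      unfold sqb
      rw [sum_comm]
      refine sum_congr rfl fun x hx => sum_congr rfl fun y hy => ?_
      rw [kk_alive hs a l hx hy]
      ring
    rw [sum_congr rfl e1, sum_comm]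
    have e2 : ∀ l ∈ lbs L, ∑ x0 ∈ iv k q0, ∑ x ∈ iv k r, ∑ y ∈ iv k s,
        a (k + 1) l x y ^ 2 * F (k + 1) (x0, x, y) ^ 2 ≤
        ∑ x ∈ iv k r, ∑ y ∈ iv k s, a (k + 1) l x y ^ 2 * (e * 2 ^ k) := by
      intro l _
      rw [sum_comm]
      refine sum_le_sum fun x _ => ?_
      rw [sum_comm]
      refine sum_le_sum fun y _ => ?_
      rw [← mul_sum]
      exact mul_le_mul_of_nonneg_left (hF x y) (sq_nonneg _)
    refine (sum_le_sum e2).trans ?_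
    have e3 : ∑ l ∈ lbs L, ∑ x ∈ iv k r, ∑ y ∈ iv k s, a (k + 1) l x y ^ 2 * (e * 2 ^ k) =
        (∑ x ∈ iv k r, ∑ y ∈ iv k s, ∑ l ∈ lbs L, a (k + 1) l x y ^ 2) * (e * 2 ^ k) := by
      rw [sum_comm, sum_mul]
      refine sum_congr rfl fun x _ => ?_
      rw [sum_comm, sum_mul]
      refine sum_congr rfl fun y _ => ?_
      rw [sum_mul]
    rw [e3]
    refine (mul_le_mul_of_nonneg_right (h hs) (by positivity)).trans (le_of_eq ?_)
    have h8 : (8 : ℝ) ^ k = 4 ^ k * 2 ^ k := by rw [← mul_pow]; norm_num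
    rw [h8]
    ring
  · refine le_trans (le_of_eq ?_) (by positivity : (0 : ℝ) ≤ 8 ^ k * (e * m))
    refine sum_eq_zero fun x0 _ => sum_eq_zero fun l _ => ?_
    unfold sqb
    refine sum_eq_zero fun y hy => sum_eq_zero fun x hx => ?_
    rw [kk_dead hs a l hx hy]
    ring

theorem sqb_kk0_le {e m : ℝ} (he : 0 ≤ e) (hm : 0 ≤ m) {a : ℕ → ℤ → ℤ → ℝ}
    (hF : ∀ x y : ℤ, ∑ z ∈ iv k q0, F (k + 1) (z, x, y) ^ 2 ≤ e * 2 ^ k)
    (h : S (k + 1) (ix 1 r) (ix 1 s) →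
      ∑ x ∈ iv k r, ∑ y ∈ iv k s, a (k + 1) x y ^ 2 ≤ 4 ^ k * m) :
    ∑ x0 ∈ iv k q0, sqb k r s (kk0 S a F x0 (k + 1)) ≤ 8 ^ k * (e * m) := by
  have h1 := sqb_kk_le (L := 0) (S := S) (F := F) (q0 := q0) (r := r) (s := s) he hm
    (a := fun k _ => a k) hF (by
      intro hs
      have h2 : ∀ x y, ∑ _l ∈ lbs 0, a (k + 1) x y ^ 2 = a (k + 1) x y ^ 2 := by
        intro x y
        rw [sum_const, H958.card_lbs]
        simp
      simp only [h2]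
      exact h hs)
  refine le_trans (le_of_eq ?_) h1
  refine sum_congr rfl fun x0 _ => ?_
  have h3 : ∀ l, sqb k r s (kk S (fun k _ => a k) F x0 (k + 1) l) =
      sqb k r s (kk0 S a F x0 (k + 1)) := fun l => rfl
  rw [sum_congr rfl fun l _ => h3 l, sum_const, H958.card_lbs]
  simp

end blocks

end

end Vale.Agent.P141.H572
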